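import Vale.Agent.P272.K.LIN.Ell
import Vale.Agent.P272.K.MP.Descent
import Vale.Agent.P272.K.MP.Global

/-! The inputs of the descent for `C^{2,α}(X) → C^α(X)`: interpolation inequality, maximum
principle, injectivity; bijectivity for all `l > 0` from surjectivity for one large `l`. -/

open scoped NNReal Topology ContDiff
open Filter Set Metric

noncomputable section

set_option linter.unusedVariables false
set_option linter.unusedSectionVars false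
set_option maxSynthPendingDepth 3

namespace Vale.Agent.P272.K.LIN

/-- The sup norm on `Hol w V` as a seminorm. -/
def Hol.supSeminorm {Y : Type*} (w : Y → Y → ℝ≥0) (V : Type*) [NormedAddCommGroup V]
    [NormedSpace ℝ V] : Seminorm ℝ (Hol w V) :=
  Seminorm.ofSMulLE Hol.N0
    (le_antisymm (Hol.N0_le le_rfl fun x => by simp) (Hol.N0_nonneg _))
    (fun f g => Hol.N0_le (add_nonneg f.N0_nonneg g.N0_nonneg) fun x =>
      (norm_add_le _ _).trans (add_le_add (f.le_N0 x) (g.le_N0 x)))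
    (fun c f => Hol.N0_le (mul_nonneg (norm_nonneg _) f.N0_nonneg) fun x => by
      rw [Hol.smul_apply, norm_smul]
      exact mul_le_mul_of_nonneg_left (f.le_N0 x) (norm_nonneg _))

lemma Hol.supSeminorm_apply {Y : Type*} {w : Y → Y → ℝ≥0} {V : Type*} [NormedAddCommGroup V]
    [NormedSpace ℝ V] (f : Hol w V) : Hol.supSeminorm w V f = f.N0 := rfl

namespace Cov

variable {E : Type*} [NormedAddCommGroup E] [NormedSpace ℝ E] {X : Type*} [TopologicalSpace X]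
  [ChartedSpace E X] [FiniteDimensional ℝ E] (𝒞 : Cov E X) {α : ℝ}

/-- Elements of `C^{2,α}(X)` are Lipschitz, with a bound by the norm. -/
lemma exists_lip_C2 : ∃ K, 0 ≤ K ∧ ∀ (v : 𝒞.C2 α) (x y : X),
    ‖𝒞.fn v x - 𝒞.fn v y‖ ≤ K * ‖v‖ * 𝒞.d x y := by
  obtain ⟨C, hC0, hC⟩ := 𝒞.exists_lip_const (V := ℝ)
  refine ⟨1 + C, by positivity, fun v x y => ?_⟩
  have h1 : ∀ x, ‖𝒞.fn v x‖ ≤ ‖v‖ := fun x =>
    ((𝒞.incl α v).norm_apply_le x).trans (𝒞.norm_incl_le v)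
  have h2 := hC (𝒞.fn v) ‖v‖ ‖v‖ (norm_nonneg _) (norm_nonneg _) h1 (fun i y hy => by
    have hr := 𝒞.r_pos i
    have hyt : y ∈ (𝒞.e i).target := 𝒞.sub' (by linarith) hy
    refine ⟨((𝒞.fn_ck v).at_target (𝒞.mem i) hyt).differentiableAt (by simp), ?_⟩
    have h3 : (𝒞.J α i v ((𝒞.e i).symm y)).2.1 = fderiv ℝ (fun y => 𝒞.fn v ((𝒞.e i).symm y)) y := by
      rw [𝒞.J_apply, 𝒞.Jf_symm hy]
      rfl
    rw [← h3]
    exact (norm_fst_le _).trans ((norm_snd_le _).trans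
      (((𝒞.J α i v).norm_apply_le _).trans (𝒞.norm_J_le i v)))) x y
  calc ‖𝒞.fn v x - 𝒞.fn v y‖ ≤ (‖v‖ + C * ‖v‖) * 𝒞.d x y := h2
    _ = (1 + C) * ‖v‖ * 𝒞.d x y := by ring

/-- Interpolation inequality. -/
lemma incl_interp (h0 : 0 < α) (h1 : α < 1) (ε : ℝ) (hε : 0 < ε) :
    ∃ C : ℝ, ∀ v : 𝒞.C2 α, ‖𝒞.incl α v‖ ≤ ε * ‖v‖ + C * Hol.supSeminorm (𝒞.w α) ℝ (𝒞.incl α v) := by
  obtain ⟨K, hK0, hK⟩ := 𝒞.exists_lip_C2 (α := α)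
  have h1' : 0 < 1 - α := by linarith
  -- the radius
  obtain ⟨ρ, hρ0, hρ⟩ : ∃ ρ : ℝ, 0 < ρ ∧ K * ρ ^ (1 - α) ≤ ε := by
    refine ⟨(ε / (K + 1)) ^ (1 / (1 - α)), by positivity, ?_⟩
    rw [← Real.rpow_mul (by positivity), one_div_mul_cancel h1'.ne', Real.rpow_one]
    rw [mul_div_assoc', div_le_iff₀ (by positivity)]
    nlinarith
  refine ⟨1 + 2 * ρ ^ (-α), fun v => ?_⟩
  rw [Hol.supSeminorm_apply]
  set N := (𝒞.incl α v).N0 with hN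
  have hN0 : 0 ≤ N := Hol.N0_nonneg _
  have hN1 : (𝒞.incl α v).N1 ≤ ε * ‖v‖ + 2 * ρ ^ (-α) * N := by
    refine Hol.N1_le (by positivity) fun x y => ?_
    have hd0 := 𝒞.d_nonneg x y
    have hw0 : 0 ≤ 𝒞.d x y ^ α := Real.rpow_nonneg hd0 _
    rw [𝒞.coe_w]
    rcases le_or_gt (𝒞.d x y) ρ with hd | hd
    · have h2 : 𝒞.d x y ≤ ρ ^ (1 - α) * 𝒞.d x y ^ α := by
        rcases hd0.eq_or_lt with h | h
        · rw [← h, Real.zero_rpow h0.ne', mul_zero]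
        · calc 𝒞.d x y = 𝒞.d x y ^ (1 - α) * 𝒞.d x y ^ α := by
                rw [← Real.rpow_add h]; simp
            _ ≤ ρ ^ (1 - α) * 𝒞.d x y ^ α := by gcongr
      calc ‖(𝒞.incl α v) x - (𝒞.incl α v) y‖ ≤ K * ‖v‖ * 𝒞.d x y := hK v x y
        _ ≤ K * ‖v‖ * (ρ ^ (1 - α) * 𝒞.d x y ^ α) := by gcongr
        _ = (K * ρ ^ (1 - α)) * ‖v‖ * 𝒞.d x y ^ α := by ring
        _ ≤ ε * ‖v‖ * 𝒞.d x y ^ α := by gcongr
        _ ≤ (ε * ‖v‖ + 2 * ρ ^ (-α) * N) * 𝒞.d x y ^ α := by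
            gcongr
            have : 0 ≤ 2 * ρ ^ (-α) * N := by positivity
            linarith
    · have h2 : 1 ≤ ρ ^ (-α) * 𝒞.d x y ^ α := by
        rw [Real.rpow_neg hρ0.le, inv_mul_eq_div, one_le_div (by positivity)]
        gcongr
      calc ‖(𝒞.incl α v) x - (𝒞.incl α v) y‖ ≤ ‖(𝒞.incl α v) x‖ + ‖(𝒞.incl α v) y‖ :=
            norm_sub_le _ _
        _ ≤ N + N := add_le_add (Hol.le_N0 _ x) (Hol.le_N0 _ y)
        _ = 2 * N * 1 := by ring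
        _ ≤ 2 * N * (ρ ^ (-α) * 𝒞.d x y ^ α) := by gcongr
        _ = (2 * ρ ^ (-α) * N) * 𝒞.d x y ^ α := by ring
        _ ≤ (ε * ‖v‖ + 2 * ρ ^ (-α) * N) * 𝒞.d x y ^ α := by
            gcongr
            have : 0 ≤ ε * ‖v‖ := by positivity
            linarith
  rw [Hol.norm_def]
  calc N + (𝒞.incl α v).N1 ≤ N + (ε * ‖v‖ + 2 * ρ ^ (-α) * N) := by gcongr
    _ = ε * ‖v‖ + (1 + 2 * ρ ^ (-α)) * N := by ring

variable {𝒞}

lemma Ell.ellAt {L : 𝒞.C2 α →L[ℝ] Hol (𝒞.w α) ℝ}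
    {a : Fin 𝒞.N → E → (E →L[ℝ] E →L[ℝ] ℝ) →L[ℝ] ℝ}
    {b : Fin 𝒞.N → E → (E →L[ℝ] ℝ) →L[ℝ] ℝ} (h : Ell 𝒞 α L a b) (v : 𝒞.C2 α) (x : X) :
    ∃ e, MP.EllAt (E := E) e (𝒞.fn v) x (L v x) := by
  obtain ⟨i, hx, hxb⟩ := 𝒞.cover x
  have hxb' := 𝒞.ball_sub hxb
  refine ⟨𝒞.e i, hx, 𝒞.fn_ck v _ (𝒞.mem i) x hx, a i (𝒞.e i x), b i (𝒞.e i x), fun ξ => ?_,
    h.eq v i x hx hxb'⟩
  by_cases hξ : ξ = 0
  · rw [hξ]
    have : ((0 : E →L[ℝ] ℝ).smulRight (0 : E →L[ℝ] ℝ)) = 0 := by ext; simp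
    rw [this, map_zero]
  · exact (h.pos i _ hxb' ξ hξ).le

/-- Maximum principle. -/
lemma Ell.max [CompactSpace X] {L : 𝒞.C2 α →L[ℝ] Hol (𝒞.w α) ℝ}
    {a : Fin 𝒞.N → E → (E →L[ℝ] E →L[ℝ] ℝ) →L[ℝ] ℝ}
    {b : Fin 𝒞.N → E → (E →L[ℝ] ℝ) →L[ℝ] ℝ} (h : Ell 𝒞 α L a b) (l : ℝ) (hl : 0 < l)
    (v : 𝒞.C2 α) : l * Hol.supSeminorm (𝒞.w α) ℝ (𝒞.incl α v) ≤
      Hol.supSeminorm (𝒞.w α) ℝ (l • 𝒞.incl α v - L v) := by
  rw [Hol.supSeminorm_apply, Hol.supSeminorm_apply]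
  set M := (l • 𝒞.incl α v - L v).N0 with hM
  have hM0 : 0 ≤ M := Hol.N0_nonneg _
  have h1 := MP.abs_le_of_op_abs_le (E := E) (v := 𝒞.fn v) (Lv := fun x => L v x)
    (fun x => h.ellAt v x) (l := l) (M := M)
    (fun x => (l • 𝒞.incl α v - L v).le_N0 x) hl
  have h2 : (𝒞.incl α v).N0 ≤ M / l := by
    refine Hol.N0_le (by positivity) fun x => ?_
    rw [le_div_iff₀ hl, mul_comm]
    exact h1 x
  rw [le_div_iff₀ hl] at h2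
  linarith

lemma Ell.injective [CompactSpace X] {L : 𝒞.C2 α →L[ℝ] Hol (𝒞.w α) ℝ}
    {a : Fin 𝒞.N → E → (E →L[ℝ] E →L[ℝ] ℝ) →L[ℝ] ℝ}
    {b : Fin 𝒞.N → E → (E →L[ℝ] ℝ) →L[ℝ] ℝ} (h : Ell 𝒞 α L a b) (l : ℝ) (hl : 0 < l) :
    Function.Injective (fun v => l • 𝒞.incl α v - L v) := by
  intro u v huv
  have h1 : l • 𝒞.incl α (u - v) - L (u - v) = 0 := by
    have h2 : l • 𝒞.incl α u - L u = l • 𝒞.incl α v - L v := huv
    rw [map_sub, map_sub, smul_sub]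
    have h3 : l • 𝒞.incl α u - l • 𝒞.incl α v - (L u - L v) =
        (l • 𝒞.incl α u - L u) - (l • 𝒞.incl α v - L v) := by abel
    rw [h3, h2, sub_self]
  have h2 := h.max l hl (u - v)
  rw [h1, map_zero, Hol.supSeminorm_apply] at h2
  refine 𝒞.C2_ext fun x => ?_
  have h3 : ‖(𝒞.incl α (u - v)) x‖ ≤ (𝒞.incl α (u - v)).N0 := Hol.le_N0 _ x
  have h4 : (𝒞.incl α (u - v)).N0 ≤ 0 := by
    by_contra h5
    push Not at h5
    nlinarith [mul_pos hl h5]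
  have h5 : (𝒞.incl α (u - v)) x = 0 := norm_le_zero_iff.1 (h3.trans h4)
  have h6 : 𝒞.fn u x - 𝒞.fn v x = 0 := h5
  linarith

/-- **Descent**: if `Λ - L` is onto for one `Λ > 0`, then `l - L` is bijective for all `l > 0`. -/
theorem Ell.bijective [T2Space X] [CompactSpace X] [RSm E X] (h0 : 0 < α) (h1 : α < 1)
    {L : 𝒞.C2 α →L[ℝ] Hol (𝒞.w α) ℝ}
    {a : Fin 𝒞.N → E → (E →L[ℝ] E →L[ℝ] ℝ) →L[ℝ] ℝ}
    {b : Fin 𝒞.N → E → (E →L[ℝ] ℝ) →L[ℝ] ℝ} (h : Ell 𝒞 α L a b) (Λ : ℝ) (hΛ : 0 < Λ)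
    (hs : Function.Surjective (fun v => Λ • 𝒞.incl α v - L v)) (l : ℝ) (hl : 0 < l) :
    Function.Bijective (fun v => l • 𝒞.incl α v - L v) := by
  have := 𝒞.completeSpace_C2 h0
  exact MP.descent (𝒞.incl α) L (Hol.supSeminorm (𝒞.w α) ℝ) 1
    (fun f => by rw [Hol.supSeminorm_apply, one_mul]; exact f.N0_le_norm)
    (fun ε hε => 𝒞.incl_interp h0 h1 ε hε) (fun l hl v => h.max l hl v) Λ hΛ
    ⟨h.injective Λ hΛ, hs⟩ l hl

end Cov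

end Vale.Agent.P272.K.LIN
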