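import Vale.Agent.P272.K.LIN.Patch1

/-! Patching: `l - L : C^{2,α}(X) → C^α(X)` is onto for large `l`. -/

open scoped NNReal Topology ContDiff
open Filter Set Metric

noncomputable section

set_option linter.unusedVariables false
set_option linter.unusedSectionVars false
set_option maxSynthPendingDepth 3

namespace Vale.Agent.P272.K.LIN

namespace Hol

variable {Y : Type*} {w : Y → Y → ℝ≥0} {V : Type*} [NormedAddCommGroup V]

lemma N0_add_le (f g : Hol w V) : (f + g).N0 ≤ f.N0 + g.N0 :=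
  N0_le (add_nonneg f.N0_nonneg g.N0_nonneg) fun x =>
    (norm_add_le _ _).trans (add_le_add (f.le_N0 x) (g.le_N0 x))

lemma N1_add_le (f g : Hol w V) : (f + g).N1 ≤ f.N1 + g.N1 :=
  N1_le (add_nonneg f.N1_nonneg g.N1_nonneg) fun x y => by
    rw [add_apply, add_apply, add_sub_add_comm, add_mul]
    exact (norm_add_le _ _).trans (add_le_add (f.le_N1 x y) (g.le_N1 x y))

lemma N0_zero : (0 : Hol w V).N0 = 0 :=
  le_antisymm (N0_le le_rfl fun x => by simp) (N0_nonneg _)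

lemma N1_zero : (0 : Hol w V).N1 = 0 :=
  le_antisymm (N1_le le_rfl fun x y => by simp) (N1_nonneg _)

lemma N0_mul_le (f g : Hol w ℝ) : (f * g).N0 ≤ f.N0 * g.N0 :=
  N0_le (mul_nonneg f.N0_nonneg g.N0_nonneg) fun x => by
    rw [mul_apply, norm_mul]
    exact mul_le_mul (f.le_N0 x) (g.le_N0 x) (norm_nonneg _) f.N0_nonneg

lemma N1_mul_le (f g : Hol w ℝ) : (f * g).N1 ≤ f.N0 * g.N1 + f.N1 * g.N0 := by
  have h0 := f.N0_nonneg
  have h1 := f.N1_nonneg
  have h2 := g.N0_nonneg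
  have h3 := g.N1_nonneg
  refine N1_le (by positivity) fun x y => ?_
  have h4 : (f * g) x - (f * g) y = f x * (g x - g y) + (f x - f y) * g y := by
    simp only [mul_apply]; ring
  rw [h4, add_mul]
  refine (norm_add_le _ _).trans (add_le_add ?_ ?_)
  · rw [mul_assoc, norm_mul]
    exact mul_le_mul (le_N0 f x) (le_N1 g x y) (norm_nonneg _) (N0_nonneg f)
  · rw [norm_mul]
    calc ‖f x - f y‖ * ‖g y‖ ≤ (N1 f * w x y) * N0 g :=
          mul_le_mul (le_N1 f x y) (le_N0 g y) (norm_nonneg _)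
            (mul_nonneg (N1_nonneg f) (NNReal.coe_nonneg _))
      _ = _ := by ring

end Hol

section
variable {Y : Type*} {w : Y → Y → ℝ≥0} {V : Type*} [NormedAddCommGroup V]

lemma Nl_add_le {α l : ℝ} (hl : 0 ≤ l) (f g : Hol w V) : Nl α l (f + g) ≤ Nl α l f + Nl α l g := by
  have h := Real.rpow_nonneg hl (α / 2)
  have h1 := mul_le_mul_of_nonneg_left (Hol.N0_add_le f g) h
  have h2 := Hol.N1_add_le f g
  unfold Nl
  linarith

lemma Nl_sum_le {α l : ℝ} (hl : 0 ≤ l) {ι : Type*} (s : Finset ι) (f : ι → Hol w V) :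
    Nl α l (∑ j ∈ s, f j) ≤ ∑ j ∈ s, Nl α l (f j) := by
  classical
  induction s using Finset.induction_on with
  | empty => simp [Nl, Hol.N0_zero, Hol.N1_zero]
  | insert a s ha ih =>
    rw [Finset.sum_insert ha, Finset.sum_insert ha]
    exact (Nl_add_le hl _ _).trans (add_le_add le_rfl ih)

lemma Nl_mul_le {α l : ℝ} (hα : 0 < α) (hl : 1 ≤ l) (f g : Hol w ℝ) :
    Nl α l (f * g) ≤ (f.N0 + f.N1) * Nl α l g := by
  have h : 1 ≤ l ^ (α / 2) := Real.one_le_rpow hl (by positivity)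
  have h1 := mul_le_mul_of_nonneg_left (Hol.N0_mul_le f g) (by linarith : 0 ≤ l ^ (α / 2))
  have h2 := Hol.N1_mul_le f g
  have h3 := f.N0_nonneg
  have h4 := f.N1_nonneg
  have h5 := g.N0_nonneg
  have h6 := g.N1_nonneg
  unfold Nl
  have h7 : f.N1 * g.N0 ≤ f.N1 * (l ^ (α / 2) * g.N0) := by
    refine mul_le_mul_of_nonneg_left ?_ h4
    nlinarith
  have h8 : 0 ≤ f.N1 * g.N1 := mul_nonneg h4 h6
  nlinarith

end

namespace Cov

variable {E : Type*} [NormedAddCommGroup E] [NormedSpace ℝ E]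
  {X : Type*} [TopologicalSpace X] [ChartedSpace E X] [FiniteDimensional ℝ E]
  (𝒞 : Cov E X)

/-- `l - L` is onto for large `l`. -/
theorem surj_large [T2Space X] [CompactSpace X] [RSm E X] {α : ℝ} (hα : 0 < α) (hα1 : α < 1)
    {L : 𝒞.C2 α →L[ℝ] Hol (𝒞.w α) ℝ}
    {a : Fin 𝒞.N → E → (E →L[ℝ] E →L[ℝ] ℝ) →L[ℝ] ℝ} {b : Fin 𝒞.N → E → (E →L[ℝ] ℝ) →L[ℝ] ℝ}
    (hL : 𝒞.Ell α L a b) :
    ∃ Λ : ℝ, 1 ≤ Λ ∧ ∀ l : ℝ, Λ ≤ l → Function.Surjective fun v : 𝒞.C2 α =>
      l • 𝒞.incl α v - L v := by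
  have := 𝒞.completeSpace_C2 (α := α) hα
  choose i r hr hxs hsub hψ using fun x₀ => 𝒞.local_patch hα hα1 hL x₀
  obtain ⟨𝒟, p, hp⟩ := exists_cov E X (fun x => 𝒞.e (i x)) (fun x => 𝒞.mem _) hxs r hr hsub
  -- the bumps
  let ψ : (j : Fin 𝒟.N) → ContDiffBump (𝒞.e (i (p j)) (p j)) := fun j =>
    ⟨r (p j), 2 * r (p j), hr _, by have := hr (p j); linarith⟩
  let e : (j : Fin 𝒟.N) → OpenPartialHomeomorph X E := fun j => 𝒞.e (i (p j))
  let ψX : Fin 𝒟.N → X → ℝ := fun j => ext0 (e j) (ψ j)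
  have hKt : ∀ j, closedBall (𝒞.e (i (p j)) (p j)) (2 * r (p j)) ⊆ (e j).target := fun j =>
    (closedBall_subset_closedBall (by have := hr (p j); linarith)).trans (hsub (p j))
  have hψ0 : ∀ j y, y ∉ closedBall (𝒞.e (i (p j)) (p j)) (2 * r (p j)) → (ψ j : E → ℝ) y = 0 := by
    intro j y hy
    apply (ψ j).zero_of_le_dist
    simp only [mem_closedBall, not_le] at hy
    exact hy.le
  have hψXck : ∀ j, CkFn E ∞ (ψX j) := fun j =>
    ext0_ck le_rfl (𝒞.mem _) (isCompact_closedBall _ _) (hKt j) (hψ0 j) fun y _ =>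
      (ψ j).contDiffAt
  have hψXnn : ∀ j x, 0 ≤ ψX j x := fun j x => indicator_nonneg (fun _ _ => (ψ j).nonneg) x
  let S : X → ℝ := fun x => ∑ j, ψX j x
  have hS1 : ∀ x, 1 ≤ S x := by
    intro x
    obtain ⟨j, hj, hjb⟩ := 𝒟.cover x
    obtain ⟨h1, h2, h3⟩ := hp j
    rw [h1] at hj hjb
    rw [h2, h3] at hjb
    have h4 : ψX j x = 1 := by
      show ext0 (e j) (ψ j) x = 1
      rw [ext0_of_mem hj]
      exact (ψ j).one_of_mem_closedBall (ball_subset_closedBall hjb)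
    rw [← h4]
    exact Finset.single_le_sum (fun k _ => hψXnn k x) (Finset.mem_univ j)
  have hSck : CkFn E ∞ S := CkFn.sum fun j _ => hψXck j
  have hSick : CkFn E ∞ (fun x => 1 / S x) :=
    (ckFn_const 1).div hSck fun x => by have := hS1 x; linarith
  let Si : Hol (𝒞.w α) ℝ := 𝒞.ofCk hα hα1.le (fun x => 1 / S x) (hSick.of_le one_le_inf)
  -- local solvers
  choose C₀ hC₀ l₀ hl₀ hsol using fun j : Fin 𝒟.N => hψ (p j) (ψ j) (ψ j).contDiff (hψ0 j)
  set C : ℝ := ∑ j, C₀ j with hC_def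
  have hC0 : 0 ≤ C := Finset.sum_nonneg fun j _ => hC₀ j
  set B : ℝ := Si.N0 + Si.N1 with hB_def
  have hB0 : 0 ≤ B := add_nonneg Si.N0_nonneg Si.N1_nonneg
  obtain ⟨Λ₀, hΛ₀, hΛ₀'⟩ := exists_le_all l₀
  have hsq := sq_nonneg (2 * C * B)
  refine ⟨1 + Λ₀ + (2 * C * B) ^ 2, by linarith, fun l hl => ?_⟩
  have hl1 : 1 ≤ l := by linarith
  have hl0 : 0 < l := by linarith
  have hlj : ∀ j, l₀ j ≤ l := fun j => (hΛ₀' j).trans (by linarith)
  have hlh : C * l ^ (-(1 / 2) : ℝ) * B ≤ 1 / 2 := by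
    have h1 : 2 * C * B ≤ l ^ (1 / 2 : ℝ) := by
      have h2 : 2 * C * B ≤ Real.sqrt l := Real.le_sqrt_of_sq_le (by linarith)
      rwa [Real.sqrt_eq_rpow] at h2
    have h3 : l ^ (-(1 / 2) : ℝ) * l ^ (1 / 2 : ℝ) = 1 := by
      rw [← Real.rpow_add hl0]; simp
    have h4 : 0 ≤ l ^ (-(1 / 2) : ℝ) := Real.rpow_nonneg hl0.le _
    have h5 := mul_le_mul_of_nonneg_left h1 h4
    nlinarith
  have hsurj := surjective_of_approx (l • 𝒞.incl α - L) (Nl α l) (C * B) 1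
    (fun y => Nl_nonneg hl0.le y) (fun y => by rw [one_mul]; exact norm_le_Nl hα hl1 y)
    fun f => ?_
  · exact hsurj
  · have hg := Nl_mul_le hα hl1 Si f
    choose u R hR hu hRN using fun j => hsol j l (hlj j) (Si * f)
    refine ⟨∑ j, u j, ?_, ?_⟩
    · calc ‖∑ j, u j‖ ≤ ∑ j, ‖u j‖ := norm_sum_le _ _
        _ ≤ ∑ j, C₀ j * Nl α l (Si * f) := Finset.sum_le_sum fun j _ => hu j
        _ = C * Nl α l (Si * f) := by rw [← Finset.sum_mul]
        _ ≤ C * (B * Nl α l f) := mul_le_mul_of_nonneg_left hg hC0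
        _ = C * B * Nl α l f := by ring
    · have hsum : f - (l • 𝒞.incl α - L) (∑ j, u j) = ∑ j, R j := by
        refine Hol.ext fun x => ?_
        rw [Hol.sum_apply]
        have h1 : ((l • 𝒞.incl α - L) (∑ j, u j)) x = ∑ j, (l * 𝒞.fn (u j) x - L (u j) x) := by
          rw [map_sum, Hol.sum_apply]
          rfl
        have h2 : ∀ j, R j x = ψX j x * (Si * f) x - (l * 𝒞.fn (u j) x - L (u j) x) := fun j =>
          hR j x
        show f x - ((l • 𝒞.incl α - L) (∑ j, u j)) x = _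
        have h3 : ∑ j, R j x = (∑ j, ψX j x) * (Si * f) x -
            ∑ j, (l * 𝒞.fn (u j) x - L (u j) x) := by
          rw [Finset.sum_mul, ← Finset.sum_sub_distrib]
          exact Finset.sum_congr rfl fun j _ => h2 j
        rw [h1, h3]
        congr 1
        show f x = S x * (1 / S x * f x)
        have := hS1 x
        field_simp
      rw [hsum]
      calc Nl α l (∑ j, R j) ≤ ∑ j, Nl α l (R j) := Nl_sum_le hl0.le _ _
        _ ≤ ∑ j, C₀ j * l ^ (-(1 / 2) : ℝ) * Nl α l (Si * f) := Finset.sum_le_sum fun j _ => hRN j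
        _ = C * l ^ (-(1 / 2) : ℝ) * Nl α l (Si * f) := by
            rw [← Finset.sum_mul, ← Finset.sum_mul]
        _ ≤ C * l ^ (-(1 / 2) : ℝ) * (B * Nl α l f) := by
            have : 0 ≤ l ^ (-(1 / 2) : ℝ) := Real.rpow_nonneg hl0.le _
            gcongr
        _ = (C * l ^ (-(1 / 2) : ℝ) * B) * Nl α l f := by ring
        _ ≤ (1 / 2) * Nl α l f := mul_le_mul_of_nonneg_right hlh (Nl_nonneg hl0.le f)
        _ = Nl α l f / 2 := by ring

end Cov

end Vale.Agent.P272.K.LIN
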