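import Vale.Agent.P272.K.LIN.LT
import Vale.Agent.P272.K.LIN.Patch

/-! The linear theorem, unconditional. -/

open scoped Manifold ContDiff Topology NNReal

set_option maxSynthPendingDepth 3

noncomputable section

namespace Vale.Agent.P272.K.LIN

theorem patchStatement {E : Type*} [NormedAddCommGroup E] [NormedSpace ℝ E]
    [FiniteDimensional ℝ E] {X : Type*} [TopologicalSpace X] [ChartedSpace E X] [T2Space X]
    [CompactSpace X] [RSm E X] {α : ℝ} (h0 : 0 < α) (h1 : α < 1) : PatchStatement E X α := by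
  intro 𝒞 L a b h
  obtain ⟨Λ, hΛ, hs⟩ := 𝒞.surj_large h0 h1 h
  exact ⟨Λ, by linarith, hs Λ le_rfl⟩

/-- The linear theorem: `l - L : C^{2,α}(X) → C^α(X)` is bijective for every `l > 0`. -/
theorem linear_bijective {E : Type*} [NormedAddCommGroup E] [NormedSpace ℝ E]
    [FiniteDimensional ℝ E] {X : Type*} [TopologicalSpace X] [ChartedSpace E X] [T2Space X]
    [CompactSpace X] [RSm E X] {α : ℝ} (h0 : 0 < α) (h1 : α < 1)
    {𝒞 : Cov E X} {L : 𝒞.C2 α →L[ℝ] Hol (𝒞.w α) ℝ}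
    {a : Fin 𝒞.N → E → (E →L[ℝ] E →L[ℝ] ℝ) →L[ℝ] ℝ}
    {b : Fin 𝒞.N → E → (E →L[ℝ] ℝ) →L[ℝ] ℝ} (h : Cov.Ell 𝒞 α L a b) (l : ℝ) (hl : 0 < l) :
    Function.Bijective fun v => l • 𝒞.incl α v - L v :=
  bijective_of_patch h0 h1 (patchStatement h0 h1) h l hl

theorem ltx {n : ℕ} {X : Type*} [TopologicalSpace X] [ChartedSpace (Cm n) X] [T2Space X]
    [CompactSpace X] [IsManifold (modelWithCornersSelf ℂ (Cm n)) ω X] {α : ℝ} (h0 : 0 < α)
    (h1 : α < 1) : N.LTX n X α := ltx_of_patch h0 h1 (patchStatement h0 h1)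

end Vale.Agent.P272.K.LIN
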