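import Vale.Agent.P272.K.LIN.C2

/-! Elliptic operators `C^{2,α}(X) → C^α(X)`. -/

open scoped NNReal Topology ContDiff
open Filter Set Metric

noncomputable section

set_option linter.unusedVariables false
set_option linter.unusedSectionVars false
set_option maxSynthPendingDepth 3

namespace Vale.Agent.P272.K.LIN

namespace Cov

variable {E : Type*} [NormedAddCommGroup E] [NormedSpace ℝ E] {X : Type*} [TopologicalSpace X]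
  [ChartedSpace E X] [FiniteDimensional ℝ E]

/-- `L` is an elliptic second order operator with `α`-Hölder coefficients `a`, `b` in the cover
charts. -/
structure Ell (𝒞 : Cov E X) (α : ℝ) (L : 𝒞.C2 α →L[ℝ] Hol (𝒞.w α) ℝ)
    (a : Fin 𝒞.N → E → (E →L[ℝ] E →L[ℝ] ℝ) →L[ℝ] ℝ)
    (b : Fin 𝒞.N → E → (E →L[ℝ] ℝ) →L[ℝ] ℝ) : Prop where
  hola : ∀ i, ∃ K, ∀ y ∈ ball (𝒞.c i) (2 * 𝒞.r i), ∀ y' ∈ ball (𝒞.c i) (2 * 𝒞.r i),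
    ‖a i y - a i y'‖ ≤ K * ‖y - y'‖ ^ α
  holb : ∀ i, ∃ K, ∀ y ∈ ball (𝒞.c i) (2 * 𝒞.r i), ∀ y' ∈ ball (𝒞.c i) (2 * 𝒞.r i),
    ‖b i y - b i y'‖ ≤ K * ‖y - y'‖ ^ α
  pos : ∀ i, ∀ y ∈ ball (𝒞.c i) (2 * 𝒞.r i), ∀ ξ : E →L[ℝ] ℝ, ξ ≠ 0 →
    0 < a i y (ξ.smulRight ξ)
  eq : ∀ (v : 𝒞.C2 α) i x, x ∈ (𝒞.e i).source → 𝒞.e i x ∈ ball (𝒞.c i) (2 * 𝒞.r i) →
    L v x = a i (𝒞.e i x) (fderiv ℝ (fderiv ℝ fun y => 𝒞.fn v ((𝒞.e i).symm y)) (𝒞.e i x)) +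
      b i (𝒞.e i x) (fderiv ℝ (fun y => 𝒞.fn v ((𝒞.e i).symm y)) (𝒞.e i x))

end Cov

end Vale.Agent.P272.K.LIN
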