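import Mathlib.Analysis.Calculus.ContDiff.Basic
import Mathlib.Analysis.Calculus.ContDiff.Operations
import Mathlib.Analysis.SpecialFunctions.Pow.Real

/-! Two-jets of real functions and bounds in Hölder norms (interface of the linear block). -/

open scoped ContDiff

noncomputable section

namespace Vale.Agent.P272.K.LIN

/-- Two-jets of real functions on `E`. -/
abbrev Jet (E : Type*) [NormedAddCommGroup E] [NormedSpace ℝ E] : Type _ :=
  ℝ × (E →L[ℝ] ℝ) × (E →L[ℝ] E →L[ℝ] ℝ)

/-- The two-jet of `f` at `x`. -/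
def jet {E : Type*} [NormedAddCommGroup E] [NormedSpace ℝ E] (f : E → ℝ) (x : E) : Jet E :=
  (f x, fderiv ℝ f x, fderiv ℝ (fderiv ℝ f) x)

/-- `f` is bounded by `A` and its `α`-Hölder seminorm is bounded by `B`. -/
structure HB {E V : Type*} [NormedAddCommGroup E] [NormedAddCommGroup V] (α : ℝ) (f : E → V)
    (A B : ℝ) : Prop where
  sup : ∀ x, ‖f x‖ ≤ A
  hol : ∀ x y, ‖f x - f y‖ ≤ B * ‖x - y‖ ^ α

/-- The three weighted bounds for the solution of `l v - L v = f`, where
`N = l ^ (α / 2) * sup |f| + [f]_α`. -/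
structure ResBd {E : Type*} [NormedAddCommGroup E] [NormedSpace ℝ E] (α l C N : ℝ) (v : E → ℝ) :
    Prop where
  zero : HB α v (C * N * l ^ (-(1 + α / 2))) (C * N * l ^ (-1 : ℝ))
  one : HB α (fderiv ℝ v) (C * N * l ^ (-((1 + α) / 2))) (C * N * l ^ (-(1 / 2) : ℝ))
  two : HB α (fderiv ℝ (fderiv ℝ v)) (C * N * l ^ (-(α / 2))) (C * N)

end Vale.Agent.P272.K.LIN
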