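import Vale.Agent.P272.K.LIN.Transfer
import Mathlib.Analysis.Normed.Operator.Completeness
import Mathlib.Topology.UniformSpace.Pi

/-!
# The Banach space `C^{2,α}(X)`
-/

open scoped NNReal Topology ContDiff
open Filter Set Metric

noncomputable section

set_option linter.unusedVariables false
set_option linter.unusedSectionVars false
set_option maxSynthPendingDepth 3

namespace Vale.Agent.P272.K.LIN

variable {E : Type*} [NormedAddCommGroup E] [NormedSpace ℝ E] {X : Type*} [TopologicalSpace X]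
  [ChartedSpace E X]

/-! ### A function which has a two-jet -/

/-- If `q` is a continuous family of jets which is a jet to first order, then it is the jet of its
first component. -/
lemma contDiffAt_two_of_hasFDerivAt {O : Set E} (hO : IsOpen O) {f : E → ℝ} {q1 : E → E →L[ℝ] ℝ}
    {q2 : E → E →L[ℝ] E →L[ℝ] ℝ} (h1 : ∀ y ∈ O, HasFDerivAt f (q1 y) y)
    (h2 : ∀ y ∈ O, HasFDerivAt q1 (q2 y) y) (hc : ContinuousOn q2 O) {y : E} (hy : y ∈ O) :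
    ContDiffAt ℝ 2 f y ∧ jet f y = (f y, q1 y, q2 y) := by
  have hfd : ∀ y ∈ O, fderiv ℝ f y = q1 y := fun y hy => (h1 y hy).fderiv
  have hfd' : fderiv ℝ f =ᶠ[𝓝 y] q1 := by
    filter_upwards [hO.mem_nhds hy] with z hz using hfd z hz
  have hj : jet f y = (f y, q1 y, q2 y) := by
    unfold jet
    rw [hfd y hy, hfd'.fderiv_eq, (h2 y hy).fderiv]
  refine ⟨?_, hj⟩
  have hq1 : ContDiffAt ℝ 1 q1 y := by
    have h := (contDiffAt_succ_iff_hasFDerivAt (𝕜 := ℝ) (n := 0) (f := q1) (x := y)).2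
      ⟨q2, ⟨O, hO.mem_nhds hy, h2⟩, contDiffAt_zero.2 ⟨O, hO.mem_nhds hy, hc⟩⟩
    exact h
  have h := (contDiffAt_succ_iff_hasFDerivAt (𝕜 := ℝ) (n := 1) (f := f) (x := y)).2
    ⟨q1, ⟨O, hO.mem_nhds hy, h1⟩, hq1⟩
  exact h

namespace Cov

variable [FiniteDimensional ℝ E] (𝒞 : Cov E X)

/-- The cut off jet of `v` in the `i`-th chart. -/
def Jf (i : Fin 𝒞.N) (v : X → ℝ) (x : X) : Jet E :=
  𝒞.η i x • jet (fun y => v ((𝒞.e i).symm y)) (𝒞.e i x)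

lemma jet_add {f g : E → ℝ} {y : E} (hf : ContDiffAt ℝ 2 f y) (hg : ContDiffAt ℝ 2 g y) :
    jet (fun z => f z + g z) y = jet f y + jet g y := by
  have hf1 : ∀ᶠ z in 𝓝 y, DifferentiableAt ℝ f z := by
    filter_upwards [hf.eventually (by simp)] with z hz using hz.differentiableAt (by simp)
  have hg1 : ∀ᶠ z in 𝓝 y, DifferentiableAt ℝ g z := by
    filter_upwards [hg.eventually (by simp)] with z hz using hz.differentiableAt (by simp)
  have h1 : fderiv ℝ (fun z => f z + g z) =ᶠ[𝓝 y] fun z => fderiv ℝ f z + fderiv ℝ g z := by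
    filter_upwards [hf1, hg1] with z hz1 hz2
    exact fderiv_fun_add hz1 hz2
  have hf2 : DifferentiableAt ℝ (fderiv ℝ f) y :=
    (hf.fderiv_right (m := 1) (by norm_num)).differentiableAt (by simp)
  have hg2 : DifferentiableAt ℝ (fderiv ℝ g) y :=
    (hg.fderiv_right (m := 1) (by norm_num)).differentiableAt (by simp)
  unfold jet
  rw [h1.self_of_nhds, h1.fderiv_eq, fderiv_fun_add hf2 hg2]
  rfl

lemma jet_smul {f : E → ℝ} {y : E} (c : ℝ) :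
    jet (fun z => c * f z) y = c • jet f y := by
  have h0 : (fun z => c * f z) = c • f := rfl
  have h1 : fderiv ℝ (c • f) = c • fderiv ℝ f := fderiv_const_smul_field c
  have h2 : fderiv ℝ (c • fderiv ℝ f) = c • fderiv ℝ (fderiv ℝ f) := fderiv_const_smul_field c
  unfold jet
  rw [h0, h1, h2]
  rfl

variable (α : ℝ)

/-- The space `C^{2,α}(X)`, as a subspace of a product of Hölder spaces. -/
def C2 : Submodule ℝ (Hol (𝒞.w α) ℝ × (Fin 𝒞.N → Hol (𝒞.w α) (Jet E))) where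
  carrier := {p | CkFn E 2 (p.1 : X → ℝ) ∧ ∀ i x, p.2 i x = 𝒞.Jf i p.1 x}
  add_mem' := by
    rintro p q ⟨hp, hp'⟩ ⟨hq, hq'⟩
    refine ⟨hp.add hq, fun i x => ?_⟩
    show p.2 i x + q.2 i x = _
    rw [hp', hq']
    unfold Jf
    rw [← smul_add]
    by_cases h : 𝒞.η i x = 0
    · rw [h, zero_smul, zero_smul]
    · have hx := (𝒞.η_ne_zero h).1
      congr 1
      exact (jet_add (hp _ (𝒞.mem i) x hx) (hq _ (𝒞.mem i) x hx)).symm
  zero_mem' := by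
    refine ⟨ckFn_const (X := X) (0 : ℝ), fun i x => ?_⟩
    show (0 : Jet E) = 𝒞.η i x • jet (fun y : E => (0 : ℝ)) (𝒞.e i x)
    have : jet (fun y : E => (0 : ℝ)) (𝒞.e i x) = 0 := by
      unfold jet
      simp
    rw [this, smul_zero]
  smul_mem' := by
    rintro c p ⟨hp, hp'⟩
    refine ⟨fun e he x hx => contDiffAt_const.mul (hp e he x hx), fun i x => ?_⟩
    show c • p.2 i x = _
    rw [hp']
    unfold Jf
    rw [smul_comm]
    congr 1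
    exact (jet_smul c).symm

variable {α}

lemma η_symm {i : Fin 𝒞.N} {y : E} (hy : y ∈ ball (𝒞.c i) (2 * 𝒞.r i)) :
    (𝒞.e i).symm y ∈ (𝒞.e i).source ∧ 𝒞.e i ((𝒞.e i).symm y) = y ∧
      𝒞.η i ((𝒞.e i).symm y) = 1 := by
  have hr := 𝒞.r_pos i
  have ht : y ∈ (𝒞.e i).target := 𝒞.sub' (by linarith) hy
  refine ⟨(𝒞.e i).map_target ht, (𝒞.e i).right_inv ht, ?_⟩
  refine 𝒞.η_eq_one ((𝒞.e i).map_target ht) ?_
  rw [(𝒞.e i).right_inv ht]
  exact ball_subset_closedBall hy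

lemma Jf_symm {i : Fin 𝒞.N} {y : E} (hy : y ∈ ball (𝒞.c i) (2 * 𝒞.r i)) (v : X → ℝ) :
    𝒞.Jf i v ((𝒞.e i).symm y) = jet (fun y => v ((𝒞.e i).symm y)) y := by
  obtain ⟨h1, h2, h3⟩ := 𝒞.η_symm hy
  rw [Jf, h3, h2, one_smul]

lemma Jf_of_ball {i : Fin 𝒞.N} {x : X} (hx : x ∈ (𝒞.e i).source)
    (hxb : 𝒞.e i x ∈ ball (𝒞.c i) (2 * 𝒞.r i)) (v : X → ℝ) :
    𝒞.Jf i v x = jet (fun y => v ((𝒞.e i).symm y)) (𝒞.e i x) := by
  rw [Jf, 𝒞.η_eq_one hx (ball_subset_closedBall hxb), one_smul]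

lemma ball_sub {i : Fin 𝒞.N} : ball (𝒞.c i) (𝒞.r i) ⊆ ball (𝒞.c i) (2 * 𝒞.r i) :=
  ball_subset_ball (by have := 𝒞.r_pos i; linarith)

/-- Uniform limits of `C^2` functions together with their jets. -/
lemma limit_ck [T2Space X] [RSm E X] {p : ℕ → X → ℝ} {q : X → ℝ} {Q : Fin 𝒞.N → X → Jet E}
    (hp : ∀ n, CkFn E 2 (p n)) (hq : ∀ x, Tendsto (fun n => p n x) atTop (𝓝 (q x)))
    (hQ : ∀ i, TendstoUniformly (fun n => 𝒞.Jf i (p n)) (Q i) atTop)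
    (hQc : ∀ i, Continuous (Q i)) :
    CkFn E 2 q ∧ ∀ i x, Q i x = 𝒞.Jf i q x := by
  have hloc : ∀ i, ∀ y ∈ ball (𝒞.c i) (2 * 𝒞.r i),
      ContDiffAt ℝ 2 (fun y => q ((𝒞.e i).symm y)) y ∧
      jet (fun y => q ((𝒞.e i).symm y)) y = Q i ((𝒞.e i).symm y) := by
    intro i y hy
    have hr := 𝒞.r_pos i
    have hu : TendstoUniformlyOn (fun n y => jet (fun y => p n ((𝒞.e i).symm y)) y)
        (fun y => Q i ((𝒞.e i).symm y)) atTop (ball (𝒞.c i) (2 * 𝒞.r i)) := by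
      rw [Metric.tendstoUniformlyOn_iff]
      intro ε hε
      filter_upwards [Metric.tendstoUniformly_iff.1 (hQ i) ε hε] with n hn z hz
      rw [← 𝒞.Jf_symm hz]
      exact hn _
    have hu1 : TendstoUniformlyOn (fun n y => fderiv ℝ (fun y => p n ((𝒞.e i).symm y)) y)
        (fun y => (Q i ((𝒞.e i).symm y)).2.1) atTop (ball (𝒞.c i) (2 * 𝒞.r i)) := by
      rw [Metric.tendstoUniformlyOn_iff] at hu ⊢
      intro ε hε
      filter_upwards [hu ε hε] with n hn z hz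
      refine lt_of_le_of_lt ?_ (hn z hz)
      rw [Prod.dist_eq, Prod.dist_eq]
      exact le_max_of_le_right (le_max_left _ _)
    have hu2 : TendstoUniformlyOn
        (fun n y => fderiv ℝ (fderiv ℝ (fun y => p n ((𝒞.e i).symm y))) y)
        (fun y => (Q i ((𝒞.e i).symm y)).2.2) atTop (ball (𝒞.c i) (2 * 𝒞.r i)) := by
      rw [Metric.tendstoUniformlyOn_iff] at hu ⊢
      intro ε hε
      filter_upwards [hu ε hε] with n hn z hz
      refine lt_of_le_of_lt ?_ (hn z hz)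
      rw [Prod.dist_eq, Prod.dist_eq]
      exact le_max_of_le_right (le_max_right _ _)
    have hcd : ∀ n, ∀ z ∈ ball (𝒞.c i) (2 * 𝒞.r i),
        ContDiffAt ℝ 2 (fun y => p n ((𝒞.e i).symm y)) z := fun n z hz =>
      (hp n).at_target (𝒞.mem i) (𝒞.sub' (by linarith) hz)
    have h1 : ∀ z ∈ ball (𝒞.c i) (2 * 𝒞.r i),
        HasFDerivAt (fun y => q ((𝒞.e i).symm y)) (Q i ((𝒞.e i).symm z)).2.1 z := fun z hz =>
      hasFDerivAt_of_tendstoUniformlyOn isOpen_ball hu1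
        (fun n z hz => ((hcd n z hz).differentiableAt (by simp)).hasFDerivAt)
        (fun z hz => hq _) hz
    have h2 : ∀ z ∈ ball (𝒞.c i) (2 * 𝒞.r i),
        HasFDerivAt (fun y => (Q i ((𝒞.e i).symm y)).2.1) (Q i ((𝒞.e i).symm z)).2.2 z :=
      fun z hz => hasFDerivAt_of_tendstoUniformlyOn isOpen_ball hu2
        (fun n z hz => (((hcd n z hz).fderiv_right (m := 1) (by norm_num)).differentiableAt
          (by simp)).hasFDerivAt)
        (fun z hz => hu1.tendsto_at hz) hz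
    have hc : ContinuousOn (fun y => (Q i ((𝒞.e i).symm y)).2.2) (ball (𝒞.c i) (2 * 𝒞.r i)) := by
      have : ContinuousOn (fun y => Q i ((𝒞.e i).symm y)) (ball (𝒞.c i) (2 * 𝒞.r i)) :=
        (hQc i).comp_continuousOn ((𝒞.e i).continuousOn_symm.mono (𝒞.sub' (by linarith)))
      exact (continuous_snd.comp continuous_snd).comp_continuousOn this
    obtain ⟨h3, h4⟩ := contDiffAt_two_of_hasFDerivAt isOpen_ball h1 h2 hc hy
    refine ⟨h3, h4.trans ?_⟩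
    refine Prod.ext ?_ rfl
    have h5 : Tendsto (fun n => p n ((𝒞.e i).symm y)) atTop (𝓝 (Q i ((𝒞.e i).symm y)).1) := by
      have := (continuous_fst.tendsto _).comp (hu.tendsto_at hy)
      exact this
    exact tendsto_nhds_unique (hq _) h5
  have hck : CkFn E 2 q := by
    refine ckFn_of_local two_le_inf fun x => ?_
    obtain ⟨i, hx, hxb⟩ := 𝒞.cover x
    exact ⟨𝒞.e i, 𝒞.mem i, hx, (hloc i _ (𝒞.ball_sub hxb)).1⟩
  refine ⟨hck, fun i x => ?_⟩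
  by_cases hη : 𝒞.η i x = 0
  · have h1 : Tendsto (fun n => 𝒞.Jf i (p n) x) atTop (𝓝 (Q i x)) := (hQ i).tendsto_at x
    have h2 : ∀ v, 𝒞.Jf i v x = 0 := fun v => by rw [Jf, hη, zero_smul]
    simp only [h2] at h1
    rw [h2]
    exact tendsto_nhds_unique h1 tendsto_const_nhds
  · have hxi := (𝒞.η_ne_zero hη).1
    obtain ⟨j, hx, hxb⟩ := 𝒞.cover x
    have hxb' := 𝒞.ball_sub hxb
    have h1 : ∀ v : X → ℝ, CkFn E 2 v → 𝒞.Jf i v x =
        𝒞.η i x • TJ (𝒞.e j) (𝒞.e i) (𝒞.e i x) (𝒞.Jf j v x) := by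
      intro v hv
      rw [𝒞.Jf_of_ball hx hxb', ← jet_change hv (𝒞.mem j) (𝒞.mem i) hx hxi]
      rfl
    have h2 : Tendsto (fun n => 𝒞.Jf i (p n) x) atTop (𝓝 (Q i x)) := (hQ i).tendsto_at x
    have h3 : Tendsto (fun n => 𝒞.η i x • TJ (𝒞.e j) (𝒞.e i) (𝒞.e i x) (𝒞.Jf j (p n) x)) atTop
        (𝓝 (𝒞.η i x • TJ (𝒞.e j) (𝒞.e i) (𝒞.e i x) (Q j x))) :=
      (((TJ (𝒞.e j) (𝒞.e i) (𝒞.e i x)).continuous.tendsto _).comp
        ((hQ j).tendsto_at x)).const_smul _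
    have h4 : Q j x = 𝒞.Jf j q x := by
      rw [𝒞.Jf_of_ball hx hxb', (hloc j _ hxb').2, (𝒞.e j).left_inv hx]
    rw [h1 q hck, ← h4]
    refine tendsto_nhds_unique h2 (h3.congr fun n => (h1 _ (hp n)).symm)

lemma isClosed_C2 [T2Space X] [RSm E X] (h0 : 0 < α) :
    IsClosed (𝒞.C2 α : Set (Hol (𝒞.w α) ℝ × (Fin 𝒞.N → Hol (𝒞.w α) (Jet E)))) := by
  refine IsSeqClosed.isClosed fun p q hp hq => ?_
  have hd : ∀ n, ‖p n - q‖ = dist (p n) q := fun n => (dist_eq_norm _ _).symm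
  have hlim : Tendsto (fun n => ‖p n - q‖) atTop (𝓝 0) := by
    simp only [hd]
    exact tendsto_iff_dist_tendsto_zero.1 hq
  have h1 : ∀ n x, ‖(p n).1 x - q.1 x‖ ≤ ‖p n - q‖ := fun n x =>
    (((p n).1 - q.1).norm_apply_le x).trans (norm_fst_le (p n - q))
  have h2 : ∀ n i x, ‖(p n).2 i x - q.2 i x‖ ≤ ‖p n - q‖ := fun n i x =>
    (((p n).2 i - q.2 i).norm_apply_le x).trans
      ((norm_le_pi_norm ((p n).2 - q.2) i).trans (norm_snd_le (p n - q)))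
  have key := 𝒞.limit_ck (p := fun n => (p n).1) (q := q.1) (Q := fun i => q.2 i)
    (fun n => (hp n).1)
    (fun x => by
      rw [tendsto_iff_norm_sub_tendsto_zero]
      exact squeeze_zero (fun n => norm_nonneg _) (fun n => h1 n x) hlim)
    (fun i => by
      rw [Metric.tendstoUniformly_iff]
      intro ε hε
      filter_upwards [hlim.eventually (gt_mem_nhds hε)] with n hn x
      rw [dist_comm, dist_eq_norm, ← (hp n).2 i x]
      exact (h2 n i x).trans_lt hn)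
    (fun i => 𝒞.hol_continuous h0 _)
  exact ⟨key.1, key.2⟩

lemma completeSpace_C2 [T2Space X] [RSm E X] (h0 : 0 < α) : CompleteSpace (𝒞.C2 α) := by
  have h1 : CompleteSpace (Hol (𝒞.w α) (Jet E)) := inferInstance
  have h2 : CompleteSpace (Fin 𝒞.N → Hol (𝒞.w α) (Jet E)) :=
    @Pi.complete (Fin 𝒞.N) (fun _ => Hol (𝒞.w α) (Jet E)) _ fun _ => h1
  have h3 : CompleteSpace (Hol (𝒞.w α) ℝ × (Fin 𝒞.N → Hol (𝒞.w α) (Jet E))) :=
    @CompleteSpace.prod _ _ _ _ inferInstance h2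
  exact (𝒞.isClosed_C2 h0).completeSpace_coe

variable (α) in
/-- The inclusion `C^{2,α}(X) → C^α(X)`. -/
def incl : 𝒞.C2 α →L[ℝ] Hol (𝒞.w α) ℝ :=
  (ContinuousLinearMap.fst ℝ _ _).comp (𝒞.C2 α).subtypeL

/-- The function underlying an element of `C^{2,α}(X)`. -/
def fn (v : 𝒞.C2 α) : X → ℝ := v.1.1

lemma fn_ck (v : 𝒞.C2 α) : CkFn E 2 (𝒞.fn v) := v.2.1

@[simp] lemma incl_apply (v : 𝒞.C2 α) (x : X) : 𝒞.incl α v x = 𝒞.fn v x := rfl

variable (α) in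
/-- The `i`-th cut off jet of an element of `C^{2,α}(X)`. -/
def J (i : Fin 𝒞.N) : 𝒞.C2 α →L[ℝ] Hol (𝒞.w α) (Jet E) :=
  ((ContinuousLinearMap.proj i).comp (ContinuousLinearMap.snd ℝ _ _)).comp (𝒞.C2 α).subtypeL

lemma J_apply (i : Fin 𝒞.N) (v : 𝒞.C2 α) (x : X) : 𝒞.J α i v x = 𝒞.Jf i (𝒞.fn v) x := v.2.2 i x

lemma C2_ext {u v : 𝒞.C2 α} (h : ∀ x, 𝒞.fn u x = 𝒞.fn v x) : u = v := by
  have h1 : 𝒞.fn u = 𝒞.fn v := funext h
  apply Subtype.ext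
  refine Prod.ext (Hol.ext h) (funext fun i => Hol.ext fun x => ?_)
  rw [u.2.2 i x, v.2.2 i x]
  exact congrArg (fun f => 𝒞.Jf i f x) h1

@[simp] lemma fn_add (u v : 𝒞.C2 α) (x : X) : 𝒞.fn (u + v) x = 𝒞.fn u x + 𝒞.fn v x := rfl
@[simp] lemma fn_sub (u v : 𝒞.C2 α) (x : X) : 𝒞.fn (u - v) x = 𝒞.fn u x - 𝒞.fn v x := rfl
@[simp] lemma fn_smul (c : ℝ) (v : 𝒞.C2 α) (x : X) : 𝒞.fn (c • v) x = c * 𝒞.fn v x := rfl
@[simp] lemma fn_zero (x : X) : 𝒞.fn (0 : 𝒞.C2 α) x = 0 := rfl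

/-- The cut off jet is as smooth as the function allows. -/
lemma Jf_ck [T2Space X] [RSm E X] {k : WithTop ℕ∞} (hk : k ≤ ∞) {v : X → ℝ}
    (hv : CkFn E (k + 2) v) (i : Fin 𝒞.N) : CkFn E k (𝒞.Jf i v) :=
  𝒞.η_smul_ck i hk (g := jet fun y => v ((𝒞.e i).symm y)) fun y hy =>
    contDiffAt_jet (hv.at_target (𝒞.mem i) hy)

/-- Constructor for elements of `C^{2,α}(X)`: only the Hölder bounds for the cut off jets have to
be checked. -/
def mkC2 [T2Space X] [CompactSpace X] [RSm E X] (h0 : 0 < α) (h1 : α ≤ 1) (v : X → ℝ)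
    (hv : CkFn E 2 v) (hJ : ∀ i, ∃ B, ∀ x y, ‖𝒞.Jf i v x - 𝒞.Jf i v y‖ ≤ B * 𝒞.w α x y) :
    𝒞.C2 α :=
  ⟨⟨𝒞.ofCk h0 h1 v (hv.of_le (by norm_num)), fun i => ⟨𝒞.Jf i v,
    ck_bdd (ckFn_continuous (𝒞.Jf_ck (k := 0) (by simp) (by simpa using hv) i)), hJ i⟩⟩,
    ⟨hv, fun i x => rfl⟩⟩

@[simp] lemma fn_mkC2 [T2Space X] [CompactSpace X] [RSm E X] (h0 : 0 < α) (h1 : α ≤ 1)
    (v : X → ℝ) (hv : CkFn E 2 v)
    (hJ : ∀ i, ∃ B, ∀ x y, ‖𝒞.Jf i v x - 𝒞.Jf i v y‖ ≤ B * 𝒞.w α x y) :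
    𝒞.fn (𝒞.mkC2 h0 h1 v hv hJ) = v := rfl

/-- `C^3` functions belong to `C^{2,α}(X)`. -/
def ofSmooth [T2Space X] [CompactSpace X] [RSm E X] (h0 : 0 < α) (h1 : α ≤ 1) (v : X → ℝ)
    (hv : CkFn E 3 v) : 𝒞.C2 α :=
  𝒞.mkC2 h0 h1 v (hv.of_le (by norm_num)) fun i =>
    𝒞.ck_hol h0 h1 (𝒞.Jf_ck (k := 1) (by simp) (by convert hv using 1; norm_num) i)

@[simp] lemma fn_ofSmooth [T2Space X] [CompactSpace X] [RSm E X] (h0 : 0 < α) (h1 : α ≤ 1)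
    (v : X → ℝ) (hv : CkFn E 3 v) : 𝒞.fn (𝒞.ofSmooth h0 h1 v hv) = v := rfl

/-- The norm of `C^{2,α}(X)` is at most a bound for the constituents. -/
lemma norm_C2_le {v : 𝒞.C2 α} {B : ℝ} (hB : 0 ≤ B) (h1 : ‖𝒞.incl α v‖ ≤ B)
    (h2 : ∀ i, ‖𝒞.J α i v‖ ≤ B) : ‖v‖ ≤ B := by
  show ‖(v.1 : _ × _)‖ ≤ B
  rw [Prod.norm_def]
  refine max_le h1 ?_
  rw [pi_norm_le_iff_of_nonneg hB]
  exact h2

lemma norm_incl_le (v : 𝒞.C2 α) : ‖𝒞.incl α v‖ ≤ ‖v‖ := norm_fst_le v.1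

lemma norm_J_le (i : Fin 𝒞.N) (v : 𝒞.C2 α) : ‖𝒞.J α i v‖ ≤ ‖v‖ :=
  (norm_le_pi_norm v.1.2 i).trans (norm_snd_le v.1)

end Cov

end Vale.Agent.P272.K.LIN
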