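import Vale.Agent.P272.K.LIN.Hol
import Vale.Agent.P272.K.LIN.Jet
import Mathlib.Geometry.Manifold.ChartedSpace
import Mathlib.Analysis.Calculus.BumpFunction.FiniteDimension
import Mathlib.Analysis.Calculus.MeanValue
import Mathlib.Analysis.Calculus.ContDiff.RCLike
import Mathlib.Topology.Algebra.MetricSpace.Lipschitz

/-!
# Smooth functions on a compact manifold in charts, covers by chart balls, Whitney distance
-/

open scoped NNReal Topology ContDiff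
open Filter Set Metric

noncomputable section

set_option linter.unusedVariables false
set_option linter.unusedSectionVars false

namespace Vale.Agent.P272.K.LIN

/-- The transition maps of the atlas are smooth in the real sense. -/
class RSm (E : Type*) [NormedAddCommGroup E] [NormedSpace ℝ E] (X : Type*) [TopologicalSpace X]
    [ChartedSpace E X] : Prop where
  trans : ∀ e ∈ atlas E X, ∀ e' ∈ atlas E X, ∀ x, x ∈ e.source → x ∈ e'.source →
    ContDiffAt ℝ ∞ (fun y => e' (e.symm y)) (e x)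

section
variable {E : Type*} [NormedAddCommGroup E] [NormedSpace ℝ E] {X : Type*} [TopologicalSpace X]
  [ChartedSpace E X] {V : Type*} [NormedAddCommGroup V] [NormedSpace ℝ V]

variable (E) in
/-- `f` is of class `C^k` in all charts of the atlas. -/
def CkFn (k : WithTop ℕ∞) (f : X → V) : Prop :=
  ∀ e ∈ atlas E X, ∀ x ∈ e.source, ContDiffAt ℝ k (fun y => f (e.symm y)) (e x)

lemma CkFn.at_target {k : WithTop ℕ∞} {f : X → V} (hf : CkFn E k f)
    {e : OpenPartialHomeomorph X E} (he : e ∈ atlas E X) {y : E} (hy : y ∈ e.target) :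
    ContDiffAt ℝ k (fun y => f (e.symm y)) y := by
  have := hf e he (e.symm y) (e.map_target hy)
  rwa [e.right_inv hy] at this

lemma CkFn.of_le {k l : WithTop ℕ∞} {f : X → V} (hf : CkFn E k f) (h : l ≤ k) : CkFn E l f :=
  fun e he x hx => (hf e he x hx).of_le h

/-- near a point of the overlap the composition with the transition map is the identity -/
lemma symm_trans_eq {e e' : OpenPartialHomeomorph X E} {x : X} (hx : x ∈ e.source)
    (hx' : x ∈ e'.source) : ∀ᶠ y in 𝓝 (e' x), e'.symm y ∈ e.source ∧ y ∈ e'.target := by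
  have h1 : ∀ᶠ y in 𝓝 (e' x), y ∈ e'.target := e'.open_target.mem_nhds (e'.map_source hx')
  have h2 : Tendsto e'.symm (𝓝 (e' x)) (𝓝 x) := by
    have := e'.symm.continuousAt (x := e' x) (e'.map_source hx')
    unfold ContinuousAt at this
    rwa [e'.left_inv hx'] at this
  exact (h2.eventually (e.open_source.mem_nhds hx)).and h1

lemma ckFn_of_local [RSm E X] {k : WithTop ℕ∞} (hk : k ≤ ∞) {f : X → V}
    (h : ∀ x, ∃ e ∈ atlas E X, x ∈ e.source ∧ ContDiffAt ℝ k (fun y => f (e.symm y)) (e x)) :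
    CkFn E k f := by
  intro e' he' x hx'
  obtain ⟨e, he, hx, hf⟩ := h x
  have h1 : ContDiffAt ℝ k (fun y => e (e'.symm y)) (e' x) :=
    (RSm.trans e' he' e he x hx' hx).of_le hk
  have h2 : ContDiffAt ℝ k ((fun y => f (e.symm y)) ∘ fun y => e (e'.symm y)) (e' x) := by
    refine ContDiffAt.comp (e' x) ?_ h1
    rwa [e'.left_inv hx']
  refine h2.congr_of_eventuallyEq ?_
  filter_upwards [symm_trans_eq hx hx'] with y hy
  simp only [Function.comp]
  rw [e.left_inv hy.1]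

lemma ckFn_continuous {k : WithTop ℕ∞} {f : X → V} (hf : CkFn E k f) : Continuous f := by
  rw [continuous_iff_continuousAt]
  intro x
  have hx := mem_chart_source E x
  have h1 := (hf (chartAt E x) (chart_mem_atlas E x) x hx).continuousAt
  have h2 : ContinuousAt (chartAt E x) x := (chartAt E x).continuousAt hx
  have h3 : ContinuousAt (fun z => f ((chartAt E x).symm (chartAt E x z))) x :=
    ContinuousAt.comp (f := chartAt E x) (g := fun y => f ((chartAt E x).symm y)) h1 h2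
  refine h3.congr ?_
  filter_upwards [(chartAt E x).open_source.mem_nhds hx] with z hz
  rw [(chartAt E x).left_inv hz]

lemma ckFn_const {k : WithTop ℕ∞} (c : V) : CkFn E k (fun _ : X => c) :=
  fun _ _ _ _ => contDiffAt_const

lemma CkFn.add {k : WithTop ℕ∞} {f g : X → V} (hf : CkFn E k f) (hg : CkFn E k g) :
    CkFn E k (fun x => f x + g x) := fun e he x hx => (hf e he x hx).add (hg e he x hx)

lemma CkFn.sub {k : WithTop ℕ∞} {f g : X → V} (hf : CkFn E k f) (hg : CkFn E k g) :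
    CkFn E k (fun x => f x - g x) := fun e he x hx => (hf e he x hx).sub (hg e he x hx)

lemma CkFn.neg {k : WithTop ℕ∞} {f : X → V} (hf : CkFn E k f) :
    CkFn E k (fun x => - f x) := fun e he x hx => (hf e he x hx).neg

lemma CkFn.smul {k : WithTop ℕ∞} {f : X → ℝ} {g : X → V} (hf : CkFn E k f) (hg : CkFn E k g) :
    CkFn E k (fun x => f x • g x) := fun e he x hx => (hf e he x hx).smul (hg e he x hx)

lemma CkFn.sum {k : WithTop ℕ∞} {ι : Type*} {s : Finset ι} {f : ι → X → V}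
    (hf : ∀ i ∈ s, CkFn E k (f i)) : CkFn E k (fun x => ∑ i ∈ s, f i x) :=
  fun e he x hx => ContDiffAt.sum fun i hi => hf i hi e he x hx

lemma CkFn.comp {k : WithTop ℕ∞} {W : Type*} [NormedAddCommGroup W] [NormedSpace ℝ W]
    {f : X → V} {g : V → W} (hg : ContDiff ℝ k g) (hf : CkFn E k f) :
    CkFn E k (fun x => g (f x)) := fun e he x hx => hg.contDiffAt.comp (e x) (hf e he x hx)

lemma CkFn.clm_apply {k : WithTop ℕ∞} {W : Type*} [NormedAddCommGroup W] [NormedSpace ℝ W]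
    {f : X → V →L[ℝ] W} {g : X → V} (hf : CkFn E k f) (hg : CkFn E k g) :
    CkFn E k (fun x => f x (g x)) := fun e he x hx => (hf e he x hx).clm_apply (hg e he x hx)

lemma CkFn.mul {k : WithTop ℕ∞} {f g : X → ℝ} (hf : CkFn E k f) (hg : CkFn E k g) :
    CkFn E k (fun x => f x * g x) := fun e he x hx => (hf e he x hx).mul (hg e he x hx)

lemma CkFn.div {k : WithTop ℕ∞} {f g : X → ℝ} (hf : CkFn E k f) (hg : CkFn E k g)
    (h : ∀ x, g x ≠ 0) :
    CkFn E k (fun x => f x / g x) := fun e he x hx => (hf e he x hx).div (hg e he x hx) (h _)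

/-! ### Extension by zero -/

/-- The function on `X` which is `g` in the chart `e`, extended by zero. -/
def ext0 (e : OpenPartialHomeomorph X E) (g : E → V) : X → V :=
  e.source.indicator fun x => g (e x)

lemma ext0_of_mem {e : OpenPartialHomeomorph X E} {g : E → V} {x : X} (hx : x ∈ e.source) :
    ext0 e g x = g (e x) := indicator_of_mem hx _

lemma ext0_of_notMem {e : OpenPartialHomeomorph X E} {g : E → V} {x : X} (hx : x ∉ e.source) :
    ext0 e g x = 0 := indicator_of_notMem hx _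

/-- outside the compact set `e.symm '' K` a function supported in `K` vanishes -/
lemma ext0_eventually_zero [T2Space X] {e : OpenPartialHomeomorph X E} {g : E → V} {K : Set E}
    (hK : IsCompact K) (hKt : K ⊆ e.target) (hg : ∀ y, y ∉ K → g y = 0) {x : X}
    (hx : x ∉ e.source) : ∀ᶠ z in 𝓝 x, ext0 e g z = 0 := by
  have hc : IsClosed (e.symm '' K) :=
    (hK.image_of_continuousOn (e.continuousOn_symm.mono hKt)).isClosed
  have hx' : x ∉ e.symm '' K := by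
    rintro ⟨y, hy, rfl⟩
    exact hx (e.map_target (hKt hy))
  filter_upwards [hc.isOpen_compl.mem_nhds hx'] with z hz
  by_cases hzs : z ∈ e.source
  · rw [ext0_of_mem hzs]
    refine hg _ fun hy => hz ⟨e z, hy, e.left_inv hzs⟩
  · exact ext0_of_notMem hzs

lemma ext0_ck [T2Space X] [RSm E X] {k : WithTop ℕ∞} (hk : k ≤ ∞)
    {e : OpenPartialHomeomorph X E} (he : e ∈ atlas E X) {g : E → V} {K : Set E}
    (hK : IsCompact K) (hKt : K ⊆ e.target) (hg : ∀ y, y ∉ K → g y = 0)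
    (hs : ∀ y ∈ e.target, ContDiffAt ℝ k g y) : CkFn E k (ext0 e g) := by
  refine ckFn_of_local hk fun x => ?_
  by_cases hx : x ∈ e.source
  · refine ⟨e, he, hx, (hs _ (e.map_source hx)).congr_of_eventuallyEq ?_⟩
    filter_upwards [e.open_target.mem_nhds (e.map_source hx)] with y hy
    rw [ext0_of_mem (e.map_target hy), e.right_inv hy]
  · refine ⟨chartAt E x, chart_mem_atlas E x, mem_chart_source E x,
      (contDiffAt_const (c := (0 : V))).congr_of_eventuallyEq ?_⟩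
    have h1 := ext0_eventually_zero hK hKt hg hx
    have h2 : Tendsto (chartAt E x).symm (𝓝 (chartAt E x x)) (𝓝 x) := by
      have := (chartAt E x).symm.continuousAt (x := chartAt E x x)
        ((chartAt E x).map_source (mem_chart_source E x))
      unfold ContinuousAt at this
      rwa [(chartAt E x).left_inv (mem_chart_source E x)] at this
    exact h2.eventually h1

end

/-! ### Covers by chart balls -/

/-- A finite cover of `X` by chart balls. -/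
structure Cov (E : Type*) [NormedAddCommGroup E] [NormedSpace ℝ E] (X : Type*)
    [TopologicalSpace X] [ChartedSpace E X] where
  N : ℕ
  e : Fin N → OpenPartialHomeomorph X E
  c : Fin N → E
  r : Fin N → ℝ
  mem : ∀ i, e i ∈ atlas E X
  r_pos : ∀ i, 0 < r i
  sub : ∀ i, closedBall (c i) (3 * r i) ⊆ (e i).target
  cover : ∀ x, ∃ i, x ∈ (e i).source ∧ e i x ∈ ball (c i) (r i)

namespace Cov

variable {E : Type*} [NormedAddCommGroup E] [NormedSpace ℝ E] {X : Type*} [TopologicalSpace X]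
  [ChartedSpace E X] {V : Type*} [NormedAddCommGroup V] [NormedSpace ℝ V]

variable (E X) in
/-- Covers exist, with charts and radii prescribed at every point. -/
lemma exists_cov [CompactSpace X] (e : X → OpenPartialHomeomorph X E) (he : ∀ x, e x ∈ atlas E X)
    (hx : ∀ x, x ∈ (e x).source) (r : X → ℝ) (hr : ∀ x, 0 < r x)
    (hs : ∀ x, closedBall (e x x) (3 * r x) ⊆ (e x).target) :
    ∃ (𝒞 : Cov E X) (p : Fin 𝒞.N → X), ∀ i, 𝒞.e i = e (p i) ∧ 𝒞.c i = e (p i) (p i) ∧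
      𝒞.r i = r (p i) := by
  have hU : ∀ x, (e x).source ∩ (e x) ⁻¹' ball (e x x) (r x) ∈ 𝓝 x := fun x =>
    ((e x).isOpen_inter_preimage isOpen_ball).mem_nhds ⟨hx x, mem_ball_self (hr x)⟩
  obtain ⟨t, ht⟩ := CompactSpace.elim_nhds_subcover _ hU
  let f := t.equivFin.symm
  refine ⟨⟨t.card, fun i => e (f i), fun i => e (f i) (f i), fun i => r (f i), fun i => he _,
    fun i => hr _, fun i => hs _, fun x => ?_⟩, fun i => f i, fun i => ⟨rfl, rfl, rfl⟩⟩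
  have hx' : x ∈ ⋃ y ∈ t, (e y).source ∩ (e y) ⁻¹' ball (e y y) (r y) := by rw [ht]; trivial
  simp only [mem_iUnion] at hx'
  obtain ⟨y, hy, hxy⟩ := hx'
  refine ⟨t.equivFin ⟨y, hy⟩, ?_⟩
  have : f (t.equivFin ⟨y, hy⟩) = ⟨y, hy⟩ := by simp [f]
  rw [this]
  exact hxy

variable (E X) in
lemma nonempty [CompactSpace X] : Nonempty (Cov E X) := by
  have h : ∀ x : X, ∃ r : ℝ, 0 < r ∧ closedBall (chartAt E x x) (3 * r) ⊆ (chartAt E x).target := by
    intro x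
    obtain ⟨ε, hε, h⟩ := Metric.isOpen_iff.1 (chartAt E x).open_target _ (mem_chart_target E x)
    refine ⟨ε / 4, by positivity, (closedBall_subset_ball ?_).trans h⟩
    linarith
  choose r hr hs using h
  obtain ⟨𝒞, -⟩ := exists_cov E X (fun x => chartAt E x) (fun x => chart_mem_atlas E x)
    (fun x => mem_chart_source E x) r hr hs
  exact ⟨𝒞⟩

variable (𝒞 : Cov E X)

lemma sub' {i : Fin 𝒞.N} {s : ℝ} (hs : s ≤ 3 * 𝒞.r i) : ball (𝒞.c i) s ⊆ (𝒞.e i).target :=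
  (ball_subset_closedBall.trans (closedBall_subset_closedBall hs)).trans (𝒞.sub i)

section bump
variable [FiniteDimensional ℝ E]

/-- The bump function in the `i`-th chart. -/
def bump (i : Fin 𝒞.N) : ContDiffBump (𝒞.c i) where
  rIn := 2 * 𝒞.r i
  rOut := 3 * 𝒞.r i
  rIn_pos := by have := 𝒞.r_pos i; positivity
  rIn_lt_rOut := by have := 𝒞.r_pos i; linarith

/-- The cutoff functions: `η i = 1` on the ball of radius `2 r i`, supported in the ball of radius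
`3 r i`. -/
def η (i : Fin 𝒞.N) : X → ℝ := ext0 (𝒞.e i) (𝒞.bump i)

lemma η_nonneg (i : Fin 𝒞.N) (x : X) : 0 ≤ 𝒞.η i x := by
  unfold η ext0
  exact indicator_nonneg (fun x _ => (𝒞.bump i).nonneg) x

lemma η_le_one (i : Fin 𝒞.N) (x : X) : 𝒞.η i x ≤ 1 := by
  unfold η ext0
  by_cases hx : x ∈ (𝒞.e i).source
  · rw [indicator_of_mem hx]; exact (𝒞.bump i).le_one
  · rw [indicator_of_notMem hx]; exact zero_le_one

lemma abs_η_le (i : Fin 𝒞.N) (x : X) : |𝒞.η i x| ≤ 1 := by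
  rw [abs_of_nonneg (𝒞.η_nonneg i x)]; exact 𝒞.η_le_one i x

lemma η_eq_one {i : Fin 𝒞.N} {x : X} (hx : x ∈ (𝒞.e i).source)
    (h : 𝒞.e i x ∈ closedBall (𝒞.c i) (2 * 𝒞.r i)) : 𝒞.η i x = 1 := by
  rw [η, ext0_of_mem hx]
  exact (𝒞.bump i).one_of_mem_closedBall h

lemma η_ne_zero {i : Fin 𝒞.N} {x : X} (h : 𝒞.η i x ≠ 0) :
    x ∈ (𝒞.e i).source ∧ 𝒞.e i x ∈ ball (𝒞.c i) (3 * 𝒞.r i) := by
  have hx : x ∈ (𝒞.e i).source := by
    by_contra hx
    exact h (ext0_of_notMem hx)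
  refine ⟨hx, ?_⟩
  by_contra h2
  apply h
  rw [η, ext0_of_mem hx]
  apply (𝒞.bump i).zero_of_le_dist
  simpa [bump] using h2

lemma η_ck [T2Space X] [RSm E X] (i : Fin 𝒞.N) : CkFn E ∞ (𝒞.η i) :=
  ext0_ck le_rfl (𝒞.mem i) (K := closedBall (𝒞.c i) (3 * 𝒞.r i)) (isCompact_closedBall _ _)
    (𝒞.sub i) (fun y hy => by
      apply (𝒞.bump i).zero_of_le_dist
      simp only [mem_closedBall, not_le] at hy
      exact hy.le) fun y _ => (𝒞.bump i).contDiffAt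

/-- a function multiplied by `η i` and transported from the `i`-th chart -/
lemma η_smul_ck [T2Space X] [RSm E X] (i : Fin 𝒞.N) {k : WithTop ℕ∞} (hk : k ≤ ∞) {g : E → V}
    (hg : ∀ y ∈ (𝒞.e i).target, ContDiffAt ℝ k g y) :
    CkFn E k (fun x => 𝒞.η i x • g (𝒞.e i x)) := by
  have h1 : (fun x => 𝒞.η i x • g (𝒞.e i x)) = ext0 (𝒞.e i) (fun y => 𝒞.bump i y • g y) := by
    funext x
    by_cases hx : x ∈ (𝒞.e i).source
    · rw [ext0_of_mem hx, η, ext0_of_mem hx]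
    · rw [ext0_of_notMem hx, η, ext0_of_notMem hx, zero_smul]
  rw [h1]
  refine ext0_ck hk (𝒞.mem i) (K := closedBall (𝒞.c i) (3 * 𝒞.r i)) (isCompact_closedBall _ _)
    (𝒞.sub i) (fun y hy => ?_) fun y hy =>
      (((𝒞.bump i).contDiffAt (n := ⊤)).of_le hk).smul (hg y hy)
  have : (𝒞.bump i) y = 0 := by
    apply (𝒞.bump i).zero_of_le_dist
    simp only [mem_closedBall, not_le] at hy
    exact hy.le
  rw [this, zero_smul]

/-- The Whitney distance. -/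
def d (x y : X) : ℝ :=
  ∑ i, (‖𝒞.η i x • 𝒞.e i x - 𝒞.η i y • 𝒞.e i y‖ + |𝒞.η i x - 𝒞.η i y|)

lemma d_nonneg (x y : X) : 0 ≤ 𝒞.d x y := Finset.sum_nonneg fun i _ => by positivity

lemma d_self (x : X) : 𝒞.d x x = 0 := by simp [d]

lemma d_comm (x y : X) : 𝒞.d x y = 𝒞.d y x := by
  unfold d
  refine Finset.sum_congr rfl fun i _ => ?_
  rw [norm_sub_rev, abs_sub_comm]

lemma term_le_d (i : Fin 𝒞.N) (x y : X) :
    ‖𝒞.η i x • 𝒞.e i x - 𝒞.η i y • 𝒞.e i y‖ + |𝒞.η i x - 𝒞.η i y| ≤ 𝒞.d x y :=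
  Finset.single_le_sum (f := fun i => ‖𝒞.η i x • 𝒞.e i x - 𝒞.η i y • 𝒞.e i y‖ +
    |𝒞.η i x - 𝒞.η i y|) (fun i _ => by positivity) (Finset.mem_univ i)

lemma norm_η_smul_le (i : Fin 𝒞.N) (x : X) :
    ‖𝒞.η i x • 𝒞.e i x‖ ≤ ‖𝒞.c i‖ + 3 * 𝒞.r i := by
  have hr := 𝒞.r_pos i
  by_cases h : 𝒞.η i x = 0
  · rw [h, zero_smul, norm_zero]; positivity
  · have h1 := (𝒞.η_ne_zero h).2
    rw [mem_ball, dist_eq_norm] at h1
    rw [norm_smul, Real.norm_eq_abs]
    calc |𝒞.η i x| * ‖𝒞.e i x‖ ≤ 1 * ‖𝒞.e i x‖ := by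
          gcongr; exact 𝒞.abs_η_le i x
      _ = ‖(𝒞.e i x - 𝒞.c i) + 𝒞.c i‖ := by rw [one_mul, sub_add_cancel]
      _ ≤ ‖𝒞.e i x - 𝒞.c i‖ + ‖𝒞.c i‖ := norm_add_le _ _
      _ ≤ _ := by linarith

/-- a bound for the Whitney distance -/
def D : ℝ := ∑ i, (2 * (‖𝒞.c i‖ + 3 * 𝒞.r i) + 2)

lemma D_nonneg : 0 ≤ 𝒞.D := Finset.sum_nonneg fun i _ => by
  have := 𝒞.r_pos i
  positivity

lemma d_le (x y : X) : 𝒞.d x y ≤ 𝒞.D := by
  refine Finset.sum_le_sum fun i _ => add_le_add ?_ ?_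
  · refine (norm_sub_le _ _).trans ?_
    have h1 := 𝒞.norm_η_smul_le i x
    have h2 := 𝒞.norm_η_smul_le i y
    linarith
  · refine (abs_sub _ _).trans ?_
    have h1 := 𝒞.abs_η_le i x
    have h2 := 𝒞.abs_η_le i y
    linarith

omit [FiniteDimensional ℝ E] in
lemma exists_pos_le {N : ℕ} (f : Fin N → ℝ) (hf : ∀ i, 0 < f i) : ∃ δ > 0, ∀ i, δ ≤ f i := by
  rcases isEmpty_or_nonempty (Fin N) with h | h
  · exact ⟨1, one_pos, fun i => h.elim i⟩
  · obtain ⟨i, hi⟩ := Finite.exists_min f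
    exact ⟨f i, hf i, hi⟩

lemma exists_le_all {N : ℕ} (f : Fin N → ℝ) : ∃ C, 0 ≤ C ∧ ∀ i, f i ≤ C :=
  ⟨∑ i, |f i|, Finset.sum_nonneg fun i _ => abs_nonneg _, fun i => (le_abs_self _).trans
    (Finset.single_le_sum (f := fun i => |f i|) (fun i _ => abs_nonneg _) (Finset.mem_univ i))⟩

/-- Points at small Whitney distance lie in a common chart ball, and the chart is
`1`-Lipschitz there. -/
lemma exists_near : ∃ δ > 0, ∀ x y, 𝒞.d x y < δ → ∃ i, x ∈ (𝒞.e i).source ∧ y ∈ (𝒞.e i).source ∧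
    𝒞.e i x ∈ ball (𝒞.c i) (2 * 𝒞.r i) ∧ 𝒞.e i y ∈ ball (𝒞.c i) (2 * 𝒞.r i) ∧
    ‖𝒞.e i x - 𝒞.e i y‖ ≤ 𝒞.d x y := by
  obtain ⟨δ, hδ, h⟩ := exists_pos_le (fun i => min 1 (𝒞.r i / (1 + (‖𝒞.c i‖ + 3 * 𝒞.r i))))
    (fun i => by have := 𝒞.r_pos i; positivity)
  refine ⟨δ, hδ, fun x y hxy => ?_⟩
  obtain ⟨i, hx, hxi⟩ := 𝒞.cover x
  have hr := 𝒞.r_pos i
  have hη : 𝒞.η i x = 1 := 𝒞.η_eq_one hx
    (ball_subset_closedBall.trans (closedBall_subset_closedBall (by linarith)) hxi)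
  have ht := (𝒞.term_le_d i x y).trans_lt hxy
  have h1 : δ ≤ 1 := (h i).trans (min_le_left _ _)
  have h2 : δ ≤ 𝒞.r i / (1 + (‖𝒞.c i‖ + 3 * 𝒞.r i)) := (h i).trans (min_le_right _ _)
  rw [hη, one_smul] at ht
  have h3 : |1 - 𝒞.η i y| < δ := by
    have := norm_nonneg (𝒞.e i x - 𝒞.η i y • 𝒞.e i y)
    linarith
  have h4 : ‖𝒞.e i x - 𝒞.η i y • 𝒞.e i y‖ < δ := by
    have := abs_nonneg (1 - 𝒞.η i y)
    linarith
  have h5 : 𝒞.η i y ≠ 0 := by
    intro h0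
    rw [h0, sub_zero, abs_one] at h3
    linarith
  obtain ⟨hy, hyi⟩ := 𝒞.η_ne_zero h5
  have hyn : ‖𝒞.e i y‖ ≤ ‖𝒞.c i‖ + 3 * 𝒞.r i := by
    rw [mem_ball, dist_eq_norm] at hyi
    calc ‖𝒞.e i y‖ = ‖(𝒞.e i y - 𝒞.c i) + 𝒞.c i‖ := by rw [sub_add_cancel]
      _ ≤ ‖𝒞.e i y - 𝒞.c i‖ + ‖𝒞.c i‖ := norm_add_le _ _
      _ ≤ _ := by linarith
  have h6 : ‖𝒞.e i x - 𝒞.e i y‖ ≤ 𝒞.r i := by
    have h7 : 𝒞.e i x - 𝒞.e i y = (𝒞.e i x - 𝒞.η i y • 𝒞.e i y) - (1 - 𝒞.η i y) • 𝒞.e i y := by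
      rw [sub_smul, one_smul]; abel
    rw [h7]
    refine (norm_sub_le _ _).trans ?_
    rw [norm_smul, Real.norm_eq_abs]
    have h8 : |1 - 𝒞.η i y| * ‖𝒞.e i y‖ ≤ δ * (‖𝒞.c i‖ + 3 * 𝒞.r i) := by
      gcongr
    have h9 : δ * (1 + (‖𝒞.c i‖ + 3 * 𝒞.r i)) ≤ 𝒞.r i := by
      rwa [le_div_iff₀ (by positivity)] at h2
    linarith
  have h7 : 𝒞.e i y ∈ ball (𝒞.c i) (2 * 𝒞.r i) := by
    rw [mem_ball] at hxi ⊢
    calc dist (𝒞.e i y) (𝒞.c i) ≤ dist (𝒞.e i y) (𝒞.e i x) + dist (𝒞.e i x) (𝒞.c i) :=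
          dist_triangle _ _ _
      _ < 𝒞.r i + 𝒞.r i := by
          rw [dist_comm, dist_eq_norm]
          exact add_lt_add_of_le_of_lt h6 hxi
      _ = 2 * 𝒞.r i := by ring
  refine ⟨i, hx, hy, ball_subset_ball (by linarith) hxi, h7, ?_⟩
  have hηy : 𝒞.η i y = 1 := 𝒞.η_eq_one hy (ball_subset_closedBall h7)
  have := 𝒞.term_le_d i x y
  rw [hη, hηy, one_smul, one_smul, sub_self, abs_zero, add_zero] at this
  exact this

/-- Quantitative Lipschitz bound with respect to the Whitney distance. -/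
lemma exists_lip_const : ∃ C, 0 ≤ C ∧ ∀ (f : X → V) (A B : ℝ), 0 ≤ A → 0 ≤ B →
    (∀ x, ‖f x‖ ≤ A) →
    (∀ i, ∀ y ∈ ball (𝒞.c i) (2 * 𝒞.r i), DifferentiableAt ℝ (fun y => f ((𝒞.e i).symm y)) y ∧
      ‖fderiv ℝ (fun y => f ((𝒞.e i).symm y)) y‖ ≤ B) →
    ∀ x y, ‖f x - f y‖ ≤ (B + C * A) * 𝒞.d x y := by
  obtain ⟨δ, hδ, h⟩ := 𝒞.exists_near
  refine ⟨2 / δ, by positivity, fun f A B hA hB hf hd x y => ?_⟩
  have hd0 := 𝒞.d_nonneg x y
  rcases lt_or_ge (𝒞.d x y) δ with hxy | hxy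
  · obtain ⟨i, hx, hy, hxi, hyi, hi⟩ := h x y hxy
    have h1 := (convex_ball (𝒞.c i) (2 * 𝒞.r i)).norm_image_sub_le_of_norm_fderiv_le
      (𝕜 := ℝ) (f := fun y => f ((𝒞.e i).symm y)) (C := B) (fun z hz => (hd i z hz).1)
      (fun z hz => (hd i z hz).2) hyi hxi
    simp only [(𝒞.e i).left_inv hx, (𝒞.e i).left_inv hy] at h1
    calc ‖f x - f y‖ ≤ B * ‖𝒞.e i x - 𝒞.e i y‖ := h1
      _ ≤ B * 𝒞.d x y := by gcongr
      _ ≤ (B + 2 / δ * A) * 𝒞.d x y := by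
          have : 0 ≤ 2 / δ * A * 𝒞.d x y := by positivity
          nlinarith
  · calc ‖f x - f y‖ ≤ ‖f x‖ + ‖f y‖ := norm_sub_le _ _
      _ ≤ A + A := add_le_add (hf x) (hf y)
      _ = 2 / δ * A * δ := by field_simp; ring
      _ ≤ 2 / δ * A * 𝒞.d x y := by gcongr
      _ ≤ (B + 2 / δ * A) * 𝒞.d x y := by
          have : 0 ≤ B * 𝒞.d x y := by positivity
          nlinarith

/-- `C^1` functions are Lipschitz with respect to the Whitney distance. -/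
lemma ck_lip [CompactSpace X] {f : X → V} (hf : CkFn E 1 f) :
    ∃ B, 0 ≤ B ∧ ∀ x y, ‖f x - f y‖ ≤ B * 𝒞.d x y := by
  obtain ⟨C, hC, h⟩ := 𝒞.exists_lip_const (V := V)
  obtain ⟨A, hA⟩ : ∃ A, ∀ x, ‖f x‖ ≤ A := by
    rcases isEmpty_or_nonempty X with hX | hX
    · exact ⟨0, fun x => hX.elim x⟩
    · obtain ⟨x0, -, hx0⟩ := isCompact_univ.exists_isMaxOn (univ_nonempty (α := X))
        (ckFn_continuous hf).norm.continuousOn
      exact ⟨‖f x0‖, fun x => hx0 (mem_univ x)⟩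
  have hB : ∀ i, ∃ B, ∀ y ∈ ball (𝒞.c i) (2 * 𝒞.r i),
      ‖fderiv ℝ (fun y => f ((𝒞.e i).symm y)) y‖ ≤ B := by
    intro i
    have hr := 𝒞.r_pos i
    have hc : ContinuousOn (fun y => fderiv ℝ (fun y => f ((𝒞.e i).symm y)) y)
        (closedBall (𝒞.c i) (2 * 𝒞.r i)) := by
      intro y hy
      have hy' : y ∈ (𝒞.e i).target :=
        𝒞.sub i (closedBall_subset_closedBall (by linarith) hy)
      exact ((hf.at_target (𝒞.mem i) hy').fderiv_right (m := 0) (by simp)).continuousAt.continuousWithinAt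
    obtain ⟨B, hB⟩ := (isCompact_closedBall (𝒞.c i) (2 * 𝒞.r i)).exists_bound_of_continuousOn hc
    exact ⟨B, fun y hy => hB y (ball_subset_closedBall hy)⟩
  choose B hB using hB
  obtain ⟨B', hB'0, hB'⟩ := exists_le_all B
  refine ⟨B' + C * |A|, by positivity, h f |A| B' (abs_nonneg _) hB'0
    (fun x => (hA x).trans (le_abs_self _)) fun i y hy => ⟨?_, (hB i y hy).trans (hB' i)⟩⟩
  have hr := 𝒞.r_pos i
  exact (hf.at_target (𝒞.mem i) (𝒞.sub' (by linarith) hy)).differentiableAt (by simp)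

/-! ### The weight -/

/-- The weight `d(x,y)^α`. -/
def w (α : ℝ) (x y : X) : ℝ≥0 := (𝒞.d x y).toNNReal ^ α

lemma coe_w (α : ℝ) (x y : X) : (𝒞.w α x y : ℝ) = 𝒞.d x y ^ α := by
  rw [w, NNReal.coe_rpow, Real.coe_toNNReal _ (𝒞.d_nonneg x y)]

/-- Lipschitz implies Hölder. -/
lemma lip_le_w {α : ℝ} (h0 : 0 < α) (h1 : α ≤ 1) (x y : X) :
    𝒞.d x y ≤ 𝒞.D ^ (1 - α) * 𝒞.w α x y := by
  rw [coe_w]
  have hd := 𝒞.d_nonneg x y
  rcases hd.eq_or_lt with h | h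
  · rw [← h, Real.zero_rpow h0.ne', mul_zero]
  · calc 𝒞.d x y = 𝒞.d x y ^ (1 - α) * 𝒞.d x y ^ α := by
          rw [← Real.rpow_add h]; simp
      _ ≤ 𝒞.D ^ (1 - α) * 𝒞.d x y ^ α := by
          gcongr
          exact 𝒞.d_le x y

/-- A bounded Lipschitz function as an element of the Hölder space. -/
lemma ck_hol [CompactSpace X] {α : ℝ} (h0 : 0 < α) (h1 : α ≤ 1) {f : X → V} (hf : CkFn E 1 f) :
    ∃ B, ∀ x y, ‖f x - f y‖ ≤ B * 𝒞.w α x y := by
  obtain ⟨B, hB0, hB⟩ := 𝒞.ck_lip hf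
  refine ⟨B * 𝒞.D ^ (1 - α), fun x y => (hB x y).trans ?_⟩
  rw [mul_assoc]
  exact mul_le_mul_of_nonneg_left (𝒞.lip_le_w h0 h1 x y) hB0

lemma ck_bdd [CompactSpace X] {f : X → V} (hf : Continuous f) : ∃ A, ∀ x, ‖f x‖ ≤ A := by
  rcases isEmpty_or_nonempty X with hX | hX
  · exact ⟨0, fun x => hX.elim x⟩
  · obtain ⟨x0, -, hx0⟩ := isCompact_univ.exists_isMaxOn (univ_nonempty (α := X))
      hf.norm.continuousOn
    exact ⟨‖f x0‖, fun x => hx0 (mem_univ x)⟩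

/-- A `C^1` function as an element of the Hölder space `C^α(X)`. -/
def ofCk [CompactSpace X] {α : ℝ} (h0 : 0 < α) (h1 : α ≤ 1) (f : X → V) (hf : CkFn E 1 f) :
    Hol (𝒞.w α) V :=
  ⟨f, ck_bdd (ckFn_continuous hf), 𝒞.ck_hol h0 h1 hf⟩

@[simp] lemma ofCk_apply [CompactSpace X] {α : ℝ} (h0 : 0 < α) (h1 : α ≤ 1) (f : X → V)
    (hf : CkFn E 1 f) (x : X) : 𝒞.ofCk h0 h1 f hf x = f x := rfl

/-- The Whitney distance is continuous. -/
lemma continuous_d [T2Space X] [RSm E X] : Continuous fun p : X × X => 𝒞.d p.1 p.2 := by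
  have h1 : ∀ i, Continuous (𝒞.η i) := fun i => ckFn_continuous (𝒞.η_ck i)
  have h2 : ∀ i, Continuous fun x => 𝒞.η i x • 𝒞.e i x := fun i =>
    ckFn_continuous (𝒞.η_smul_ck i le_rfl (g := fun y => y) fun y _ => contDiffAt_id)
  unfold d
  refine continuous_finsetSum _ fun i _ => ?_
  refine Continuous.add ?_ ?_
  · exact (((h2 i).comp continuous_fst).sub ((h2 i).comp continuous_snd)).norm
  · exact (((h1 i).comp continuous_fst).sub ((h1 i).comp continuous_snd)).abs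

/-- Elements of the Hölder spaces are continuous. -/
lemma hol_continuous [T2Space X] [RSm E X] {α : ℝ} (h0 : 0 < α) (f : Hol (𝒞.w α) V) :
    Continuous f := by
  rw [continuous_iff_continuousAt]
  intro x
  have h1 : Tendsto (fun y => f.N1 * 𝒞.w α y x) (𝓝 x) (𝓝 0) := by
    have h2 : Continuous fun y => f.N1 * (𝒞.w α y x : ℝ) := by
      simp only [coe_w]
      have h3 : Continuous fun y => 𝒞.d y x :=
        𝒞.continuous_d.comp (continuous_id.prodMk continuous_const)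
      exact continuous_const.mul (h3.rpow_const fun y => Or.inr h0.le)
    have h3 := h2.tendsto x
    rwa [coe_w, d_self, Real.zero_rpow h0.ne', mul_zero] at h3
  rw [ContinuousAt, tendsto_iff_norm_sub_tendsto_zero]
  exact squeeze_zero (fun y => norm_nonneg _) (fun y => f.le_N1 y x) h1

/-! ### Charts are locally bi-Lipschitz -/

omit [FiniteDimensional ℝ E] in
lemma ck_lip_symm {e : OpenPartialHomeomorph X E} (he : e ∈ atlas E X)
    {K : Set E} (hK : IsCompact K) (hKt : K ⊆ e.target) {g : X → V} (hg : CkFn E 1 g) :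
    ∃ C, 0 ≤ C ∧ ∀ y ∈ K, ∀ y' ∈ K, ‖g (e.symm y) - g (e.symm y')‖ ≤ C * ‖y - y'‖ := by
  have h1 : LocallyLipschitzOn K (fun y => g (e.symm y)) := by
    intro y hy
    obtain ⟨C, t, ht, h⟩ := (hg.at_target he (hKt hy)).exists_lipschitzOnWith
    exact ⟨C, t, mem_nhdsWithin_of_mem_nhds ht, h⟩
  obtain ⟨C, hC⟩ := h1.exists_lipschitzOnWith_of_compact hK
  refine ⟨C, C.2, fun y hy y' hy' => ?_⟩
  have := hC.dist_le_mul y hy y' hy'
  rwa [dist_eq_norm, dist_eq_norm] at this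

/-- On a compact subset of the target of a chart the inverse chart is Lipschitz. -/
lemma symm_lip [T2Space X] [RSm E X] {e : OpenPartialHomeomorph X E} (he : e ∈ atlas E X)
    {K : Set E} (hK : IsCompact K) (hKt : K ⊆ e.target) :
    ∃ C, 0 ≤ C ∧ ∀ y ∈ K, ∀ y' ∈ K, 𝒞.d (e.symm y) (e.symm y') ≤ C * ‖y - y'‖ := by
  have h1 : ∀ i, ∃ C, 0 ≤ C ∧ ∀ y ∈ K, ∀ y' ∈ K,
      ‖𝒞.η i (e.symm y) • 𝒞.e i (e.symm y) - 𝒞.η i (e.symm y') • 𝒞.e i (e.symm y')‖ ≤
        C * ‖y - y'‖ := fun i =>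
    ck_lip_symm he hK hKt
      ((𝒞.η_smul_ck i le_rfl (g := fun y => y) fun y _ => contDiffAt_id).of_le (by simp))
  have h2 : ∀ i, ∃ C, 0 ≤ C ∧ ∀ y ∈ K, ∀ y' ∈ K,
      ‖𝒞.η i (e.symm y) - 𝒞.η i (e.symm y')‖ ≤ C * ‖y - y'‖ := fun i =>
    ck_lip_symm he hK hKt ((𝒞.η_ck i).of_le (by simp))
  choose A hA0 hA using h1
  choose B hB0 hB using h2
  refine ⟨∑ i, (A i + B i), Finset.sum_nonneg fun i _ => add_nonneg (hA0 i) (hB0 i),
    fun y hy y' hy' => ?_⟩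
  unfold d
  rw [Finset.sum_mul]
  refine Finset.sum_le_sum fun i _ => ?_
  rw [add_mul]
  exact add_le_add (hA i y hy y' hy') (hB i y hy y' hy')

/-- On a compact subset of the source of a chart the chart is Lipschitz. -/
lemma chart_lip [T2Space X] [RSm E X] {e : OpenPartialHomeomorph X E} (he : e ∈ atlas E X)
    {K : Set X} (hK : IsCompact K) (hKs : K ⊆ e.source) :
    ∃ C, 0 ≤ C ∧ ∀ x ∈ K, ∀ y ∈ K, ‖e x - e y‖ ≤ C * 𝒞.d x y := by
  obtain ⟨δ, hδ, h⟩ := 𝒞.exists_near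
  obtain ⟨A, hA⟩ := hK.exists_bound_of_continuousOn (f := e) (e.continuousOn.mono hKs)
  have h1 : ∀ i, ∃ C : ℝ, ∀ x ∈ K, ∀ y ∈ K, x ∈ (𝒞.e i).source → y ∈ (𝒞.e i).source →
      𝒞.e i x ∈ ball (𝒞.c i) (2 * 𝒞.r i) → 𝒞.e i y ∈ ball (𝒞.c i) (2 * 𝒞.r i) →
      ‖e x - e y‖ ≤ C * ‖𝒞.e i x - 𝒞.e i y‖ := by
    intro i
    have hr := 𝒞.r_pos i
    have hsub : closedBall (𝒞.c i) (2 * 𝒞.r i) ⊆ (𝒞.e i).target :=
      (closedBall_subset_closedBall (by linarith)).trans (𝒞.sub i)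
    have hcomp : IsCompact (K ∩ (𝒞.e i).symm '' closedBall (𝒞.c i) (2 * 𝒞.r i)) :=
      hK.inter_right (((isCompact_closedBall _ _).image_of_continuousOn
        ((𝒞.e i).continuousOn_symm.mono hsub)).isClosed)
    have hsrc : K ∩ (𝒞.e i).symm '' closedBall (𝒞.c i) (2 * 𝒞.r i) ⊆ (𝒞.e i).source := by
      rintro x ⟨-, y, hy, rfl⟩
      exact (𝒞.e i).map_target (hsub hy)
    have hcomp2 := hcomp.image_of_continuousOn ((𝒞.e i).continuousOn.mono hsrc)
    have hll : LocallyLipschitzOn (𝒞.e i '' (K ∩ (𝒞.e i).symm '' closedBall (𝒞.c i) (2 * 𝒞.r i)))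
        (fun y => e ((𝒞.e i).symm y)) := by
      rintro _ ⟨x, hx, rfl⟩
      obtain ⟨C, t, ht, h⟩ := ((RSm.trans (𝒞.e i) (𝒞.mem i) e he x (hsrc hx) (hKs hx.1)).of_le
        (m := 1) (by simp)).exists_lipschitzOnWith
      exact ⟨C, t, mem_nhdsWithin_of_mem_nhds ht, h⟩
    obtain ⟨C, hC⟩ := hll.exists_lipschitzOnWith_of_compact hcomp2
    refine ⟨C, fun x hx y hy hxs hys hxb hyb => ?_⟩
    have hm : ∀ z ∈ K, z ∈ (𝒞.e i).source → 𝒞.e i z ∈ ball (𝒞.c i) (2 * 𝒞.r i) →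
        𝒞.e i z ∈ 𝒞.e i '' (K ∩ (𝒞.e i).symm '' closedBall (𝒞.c i) (2 * 𝒞.r i)) :=
      fun z hz hzs hzb => ⟨z, ⟨hz, 𝒞.e i z, ball_subset_closedBall hzb, (𝒞.e i).left_inv hzs⟩, rfl⟩
    have := hC.dist_le_mul _ (hm x hx hxs hxb) _ (hm y hy hys hyb)
    rwa [dist_eq_norm, dist_eq_norm, (𝒞.e i).left_inv hxs, (𝒞.e i).left_inv hys] at this
  choose C hC using h1
  obtain ⟨C', hC'0, hC'⟩ := exists_le_all C
  refine ⟨C' + 2 * |A| / δ, by positivity, fun x hx y hy => ?_⟩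
  have hd0 := 𝒞.d_nonneg x y
  rcases lt_or_ge (𝒞.d x y) δ with hxy | hxy
  · obtain ⟨i, hxs, hys, hxi, hyi, hi⟩ := h x y hxy
    calc ‖e x - e y‖ ≤ C i * ‖𝒞.e i x - 𝒞.e i y‖ := hC i x hx y hy hxs hys hxi hyi
      _ ≤ C' * ‖𝒞.e i x - 𝒞.e i y‖ := by gcongr; exact hC' i
      _ ≤ C' * 𝒞.d x y := by gcongr
      _ ≤ (C' + 2 * |A| / δ) * 𝒞.d x y := by
          have : 0 ≤ 2 * |A| / δ * 𝒞.d x y := by positivity
          nlinarith
  · calc ‖e x - e y‖ ≤ ‖e x‖ + ‖e y‖ := norm_sub_le _ _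
      _ ≤ |A| + |A| := add_le_add ((hA x hx).trans (le_abs_self _)) ((hA y hy).trans (le_abs_self _))
      _ = 2 * |A| / δ * δ := by field_simp; ring
      _ ≤ 2 * |A| / δ * 𝒞.d x y := by gcongr
      _ ≤ (C' + 2 * |A| / δ) * 𝒞.d x y := by
          have : 0 ≤ C' * 𝒞.d x y := by positivity
          nlinarith

end bump

end Cov

end Vale.Agent.P272.K.LIN
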