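import Mathlib.Analysis.Normed.Operator.Bilinear
import Mathlib.Analysis.Normed.Algebra.Exponential
import Mathlib.Analysis.Normed.Operator.Mul
import Mathlib.LinearAlgebra.Matrix.Determinant.Basic
import Mathlib.Analysis.SpecificLimits.Basic

/-!
# The Banach space `Hol w V` of bounded `w`-Hölder functions `Y → V`

`Y` is any type, `w : Y → Y → ℝ≥0` any weight.  If `V` is a normed commutative ring, so is
`Hol w V`.
-/

open scoped NNReal Topology
open Filter

noncomputable section

set_option linter.unusedVariables false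

namespace Vale.Agent.P272.K.LIN

/-! ### Least constants -/

section lc
variable {ι : Type*}

/-- The least constant `C ≥ 0` with `a i ≤ C * b i` for all `i`. -/
def lc (a b : ι → ℝ) : ℝ := sInf {C | 0 ≤ C ∧ ∀ i, a i ≤ C * b i}

lemma lc_nonneg (a b : ι → ℝ) : 0 ≤ lc a b := Real.sInf_nonneg fun _ hC => hC.1

lemma lc_bddBelow (a b : ι → ℝ) : BddBelow {C | 0 ≤ C ∧ ∀ i, a i ≤ C * b i} :=
  ⟨0, fun _ hC => hC.1⟩

lemma lc_le {a b : ι → ℝ} {C : ℝ} (hC : 0 ≤ C) (h : ∀ i, a i ≤ C * b i) : lc a b ≤ C :=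
  csInf_le (lc_bddBelow a b) ⟨hC, h⟩

lemma lc_spec {a b : ι → ℝ} (hb : ∀ i, 0 ≤ b i) (h : ∃ C, ∀ i, a i ≤ C * b i) (i : ι) :
    a i ≤ lc a b * b i := by
  obtain ⟨C, hC⟩ := h
  have hne : {C | 0 ≤ C ∧ ∀ i, a i ≤ C * b i}.Nonempty :=
    ⟨max C 0, le_max_right _ _, fun j =>
      (hC j).trans (mul_le_mul_of_nonneg_right (le_max_left _ _) (hb j))⟩
  rcases (hb i).eq_or_lt with h0 | h0
  · have := hC i
    rw [← h0] at this ⊢
    simpa using this
  · rw [← div_le_iff₀ h0]
    refine le_csInf hne fun D hD => ?_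
    rw [div_le_iff₀ h0]
    exact hD.2 i

end lc

/-! ### The type -/

/-- Bounded functions `f : Y → V` with `‖f x - f y‖ ≤ B * w x y` for some `B`. -/
structure Hol {Y : Type*} (w : Y → Y → ℝ≥0) (V : Type*) [NormedAddCommGroup V] where
  /-- the function -/
  toFun : Y → V
  bdd' : ∃ A, ∀ x, ‖toFun x‖ ≤ A
  hol' : ∃ B, ∀ x y, ‖toFun x - toFun y‖ ≤ B * w x y

namespace Hol

variable {Y : Type*} {w : Y → Y → ℝ≥0} {V W U : Type*}
  [NormedAddCommGroup V] [NormedAddCommGroup W] [NormedAddCommGroup U]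

instance : CoeFun (Hol w V) fun _ => Y → V := ⟨Hol.toFun⟩

@[ext] lemma ext {f g : Hol w V} (h : ∀ x, f x = g x) : f = g := by
  cases f; cases g; congr; funext x; exact h x

lemma coe_injective : Function.Injective (fun f : Hol w V => (f : Y → V)) := fun f g h =>
  ext fun x => congrFun h x

@[simp] lemma coe_mk (f : Y → V) (h h') (x : Y) : (⟨f, h, h'⟩ : Hol w V) x = f x := rfl

/-- the sup norm of `f` -/
def N0 (f : Hol w V) : ℝ := lc (fun x => ‖f x‖) fun _ => 1

/-- the Hölder seminorm of `f` -/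
def N1 (f : Hol w V) : ℝ := lc (fun p : Y × Y => ‖f p.1 - f p.2‖) fun p => w p.1 p.2

lemma N0_nonneg (f : Hol w V) : 0 ≤ N0 f := lc_nonneg _ _
lemma N1_nonneg (f : Hol w V) : 0 ≤ N1 f := lc_nonneg _ _

lemma le_N0 (f : Hol w V) (x : Y) : ‖f x‖ ≤ N0 f := by
  obtain ⟨A, hA⟩ := f.bdd'
  have := lc_spec (a := fun x => ‖f x‖) (b := fun _ => 1) (fun _ => zero_le_one)
    ⟨A, fun x => by simpa using hA x⟩ x
  rwa [mul_one] at this

lemma le_N1 (f : Hol w V) (x y : Y) : ‖f x - f y‖ ≤ N1 f * w x y := by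
  obtain ⟨B, hB⟩ := f.hol'
  exact lc_spec (a := fun p : Y × Y => ‖f p.1 - f p.2‖) (b := fun p => (w p.1 p.2 : ℝ))
    (fun _ => NNReal.coe_nonneg _) ⟨B, fun p => hB p.1 p.2⟩ (x, y)

lemma N0_le {f : Hol w V} {A : ℝ} (hA : 0 ≤ A) (h : ∀ x, ‖f x‖ ≤ A) : N0 f ≤ A :=
  lc_le hA fun x => by simpa using h x

lemma N1_le {f : Hol w V} {B : ℝ} (hB : 0 ≤ B) (h : ∀ x y, ‖f x - f y‖ ≤ B * w x y) :
    N1 f ≤ B :=
  lc_le hB fun p => h p.1 p.2

/-! ### Algebraic operations -/

instance : Zero (Hol w V) := ⟨⟨0, ⟨0, fun x => by simp⟩, ⟨0, fun x y => by simp⟩⟩⟩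

instance : Add (Hol w V) := ⟨fun f g => ⟨fun x => f x + g x,
  ⟨N0 f + N0 g, fun x => (norm_add_le _ _).trans (add_le_add (le_N0 f x) (le_N0 g x))⟩,
  ⟨N1 f + N1 g, fun x y => by
    rw [add_sub_add_comm, add_mul]
    exact (norm_add_le _ _).trans (add_le_add (le_N1 f x y) (le_N1 g x y))⟩⟩⟩

instance : Neg (Hol w V) := ⟨fun f => ⟨fun x => - f x,
  ⟨N0 f, fun x => by simpa using le_N0 f x⟩,
  ⟨N1 f, fun x y => by
    rw [neg_sub_neg, norm_sub_rev]
    exact le_N1 f x y⟩⟩⟩

instance : Sub (Hol w V) := ⟨fun f g => ⟨fun x => f x - g x,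
  ⟨N0 f + N0 g, fun x => (norm_sub_le _ _).trans (add_le_add (le_N0 f x) (le_N0 g x))⟩,
  ⟨N1 f + N1 g, fun x y => by
    rw [sub_sub_sub_comm, add_mul]
    exact (norm_sub_le _ _).trans (add_le_add (le_N1 f x y) (le_N1 g x y))⟩⟩⟩

section smul
variable {𝕜 : Type*} [NormedField 𝕜] [NormedSpace 𝕜 V]

instance instSMul : SMul 𝕜 (Hol w V) := ⟨fun c f => ⟨fun x => c • f x,
  ⟨‖c‖ * N0 f, fun x => by
    rw [norm_smul]; exact mul_le_mul_of_nonneg_left (le_N0 f x) (norm_nonneg _)⟩,
  ⟨‖c‖ * N1 f, fun x y => by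
    rw [← smul_sub, norm_smul, mul_assoc]
    exact mul_le_mul_of_nonneg_left (le_N1 f x y) (norm_nonneg _)⟩⟩⟩

@[simp] lemma smul_apply (c : 𝕜) (f : Hol w V) (x : Y) : (c • f) x = c • f x := rfl
end smul

instance : SMul ℕ (Hol w V) := ⟨fun c f => ⟨fun x => c • f x,
  ⟨c * N0 f, fun x =>
    (norm_nsmul_le (n := c) (a := f x)).trans (mul_le_mul_of_nonneg_left (le_N0 f x) (Nat.cast_nonneg _))⟩,
  ⟨c * N1 f, fun x y => by
    rw [← nsmul_sub, mul_assoc]
    exact (norm_nsmul_le (n := c) (a := f x - f y)).trans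
      (mul_le_mul_of_nonneg_left (le_N1 f x y) (Nat.cast_nonneg _))⟩⟩⟩

instance : SMul ℤ (Hol w V) := ⟨fun c f => ⟨fun x => c • f x,
  ⟨‖c‖ * N0 f, fun x =>
    (norm_zsmul_le c (f x)).trans (mul_le_mul_of_nonneg_left (le_N0 f x) (norm_nonneg _))⟩,
  ⟨‖c‖ * N1 f, fun x y => by
    rw [← zsmul_sub, mul_assoc]
    exact (norm_zsmul_le c (f x - f y)).trans
      (mul_le_mul_of_nonneg_left (le_N1 f x y) (norm_nonneg _))⟩⟩⟩

@[simp] lemma zero_apply (x : Y) : (0 : Hol w V) x = 0 := rfl
@[simp] lemma add_apply (f g : Hol w V) (x : Y) : (f + g) x = f x + g x := rfl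
@[simp] lemma neg_apply (f : Hol w V) (x : Y) : (-f) x = - f x := rfl
@[simp] lemma sub_apply (f g : Hol w V) (x : Y) : (f - g) x = f x - g x := rfl

instance : AddCommGroup (Hol w V) :=
  coe_injective.addCommGroup _ rfl (fun _ _ => rfl) (fun _ => rfl) (fun _ _ => rfl)
    (fun _ _ => rfl) (fun _ _ => rfl)

/-! ### The norm -/

/-- the norm as a group norm -/
def groupNorm : AddGroupNorm (Hol w V) where
  toFun f := N0 f + N1 f
  map_zero' := by
    have h0 : N0 (0 : Hol w V) ≤ 0 := N0_le le_rfl fun x => by simp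
    have h1 : N1 (0 : Hol w V) ≤ 0 := N1_le le_rfl fun x y => by simp
    have h2 := N0_nonneg (0 : Hol w V)
    have h3 := N1_nonneg (0 : Hol w V)
    linarith
  add_le' f g := by
    have h0 : N0 (f + g) ≤ N0 f + N0 g := N0_le (add_nonneg (N0_nonneg f) (N0_nonneg g)) fun x =>
      (norm_add_le _ _).trans (add_le_add (le_N0 f x) (le_N0 g x))
    have h1 : N1 (f + g) ≤ N1 f + N1 g := N1_le (add_nonneg (N1_nonneg f) (N1_nonneg g)) fun x y => by
      rw [add_apply, add_apply, add_sub_add_comm, add_mul]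
      exact (norm_add_le _ _).trans (add_le_add (le_N1 f x y) (le_N1 g x y))
    linarith
  neg' f := by
    have h0 : ∀ f : Hol w V, N0 (-f) ≤ N0 f := fun f => N0_le (N0_nonneg f) fun x => by
      simpa using le_N0 f x
    have h1 : ∀ f : Hol w V, N1 (-f) ≤ N1 f := fun f => N1_le (N1_nonneg f) fun x y => by
      rw [neg_apply, neg_apply, neg_sub_neg, norm_sub_rev]
      exact le_N1 f x y
    have h2 := h0 (-f)
    have h3 := h1 (-f)
    rw [neg_neg] at h2 h3
    exact le_antisymm (add_le_add (h0 f) (h1 f)) (add_le_add h2 h3)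
  eq_zero_of_map_eq_zero' f h := by
    have h0 := N0_nonneg f
    have h1 := N1_nonneg f
    have h2 : N0 f = 0 := by linarith
    ext x
    have := le_N0 f x
    rw [h2] at this
    simpa using this

instance : NormedAddCommGroup (Hol w V) := groupNorm.toNormedAddCommGroup

lemma norm_def (f : Hol w V) : ‖f‖ = N0 f + N1 f := rfl

lemma N0_le_norm (f : Hol w V) : N0 f ≤ ‖f‖ := by
  rw [norm_def]; linarith [N1_nonneg f]

lemma N1_le_norm (f : Hol w V) : N1 f ≤ ‖f‖ := by
  rw [norm_def]; linarith [N0_nonneg f]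

lemma norm_apply_le (f : Hol w V) (x : Y) : ‖f x‖ ≤ ‖f‖ := (le_N0 f x).trans (N0_le_norm f)

lemma norm_sub_le' (f : Hol w V) (x y : Y) : ‖f x - f y‖ ≤ ‖f‖ * w x y :=
  (le_N1 f x y).trans (mul_le_mul_of_nonneg_right (N1_le_norm f) (NNReal.coe_nonneg _))

lemma norm_le_of {f : Hol w V} {A B : ℝ} (hA : 0 ≤ A) (hB : 0 ≤ B) (h0 : ∀ x, ‖f x‖ ≤ A)
    (h1 : ∀ x y, ‖f x - f y‖ ≤ B * w x y) : ‖f‖ ≤ A + B :=
  add_le_add (N0_le hA h0) (N1_le hB h1)

section module
variable {𝕜 : Type*} [NormedField 𝕜] [NormedSpace 𝕜 V]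

/-- coercion to functions as an additive homomorphism -/
def coeHom : Hol w V →+ (Y → V) where
  toFun f := f
  map_zero' := rfl
  map_add' _ _ := rfl

instance : Module 𝕜 (Hol w V) :=
  Function.Injective.module 𝕜 (coeHom (w := w) (V := V)) coe_injective fun _ _ => rfl

instance : NormedSpace 𝕜 (Hol w V) where
  norm_smul_le c f := by
    rw [norm_def f, mul_add]
    refine norm_le_of (mul_nonneg (norm_nonneg _) (N0_nonneg f))
      (mul_nonneg (norm_nonneg _) (N1_nonneg f)) (fun x => ?_) fun x y => ?_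
    · rw [smul_apply, norm_smul]; exact mul_le_mul_of_nonneg_left (le_N0 f x) (norm_nonneg _)
    · rw [smul_apply, smul_apply, ← smul_sub, norm_smul, mul_assoc]
      exact mul_le_mul_of_nonneg_left (le_N1 f x y) (norm_nonneg _)
end module

/-- A pointwise limit of a Cauchy sequence is in the space and is the limit. -/
lemma exists_limit {u : ℕ → Hol w V} {g : Y → V} (hu : CauchySeq u)
    (hg : ∀ x, Tendsto (fun k => u k x) atTop (𝓝 (g x))) :
    ∃ G : Hol w V, (∀ x, G x = g x) ∧ Tendsto u atTop (𝓝 G) := by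
  have key : ∀ ε > 0, ∃ N, ∀ k ≥ N, (∀ x, ‖u k x - g x‖ ≤ ε) ∧
      ∀ x y, ‖(u k x - g x) - (u k y - g y)‖ ≤ ε * w x y := by
    intro ε hε
    obtain ⟨N, hN⟩ := Metric.cauchySeq_iff.1 hu ε hε
    refine ⟨N, fun k hk => ⟨fun x => ?_, fun x y => ?_⟩⟩
    · have h1 : Tendsto (fun m => ‖u k x - u m x‖) atTop (𝓝 ‖u k x - g x‖) :=
        (tendsto_const_nhds.sub (hg x)).norm
      refine le_of_tendsto h1 (eventually_atTop.2 ⟨N, fun m hm => ?_⟩)
      have h2 := hN k hk m hm
      rw [dist_eq_norm] at h2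
      exact (norm_apply_le (u k - u m) x).trans h2.le
    · have h1 : Tendsto (fun m => ‖(u k x - u m x) - (u k y - u m y)‖) atTop
          (𝓝 ‖(u k x - g x) - (u k y - g y)‖) :=
        ((tendsto_const_nhds.sub (hg x)).sub (tendsto_const_nhds.sub (hg y))).norm
      refine le_of_tendsto h1 (eventually_atTop.2 ⟨N, fun m hm => ?_⟩)
      have h2 := hN k hk m hm
      rw [dist_eq_norm] at h2
      exact (norm_sub_le' (u k - u m) x y).trans
        (mul_le_mul_of_nonneg_right h2.le (NNReal.coe_nonneg _))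
  obtain ⟨N, hN⟩ := key 1 one_pos
  obtain ⟨hN1, hN2⟩ := hN N le_rfl
  let D : Hol w V := ⟨fun x => u N x - g x, ⟨1, hN1⟩, ⟨1, hN2⟩⟩
  refine ⟨u N - D, fun x => ?_, ?_⟩
  · show u N x - (u N x - g x) = g x
    abel
  · rw [Metric.tendsto_atTop]
    intro ε hε
    obtain ⟨M, hM⟩ := key (ε / 3) (by positivity)
    refine ⟨M, fun k hk => ?_⟩
    obtain ⟨h1, h2⟩ := hM k hk
    have h3 : ‖u k - (u N - D)‖ ≤ ε / 3 + ε / 3 := by
      refine norm_le_of (by positivity) (by positivity) (fun x => ?_) fun x y => ?_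
      · have : (u k - (u N - D)) x = u k x - g x := by
          show u k x - (u N x - (u N x - g x)) = _
          abel
        rw [this]; exact h1 x
      · have h4 : ∀ x, (u k - (u N - D)) x = u k x - g x := fun x => by
          show u k x - (u N x - (u N x - g x)) = _
          abel
        rw [h4, h4]; exact h2 x y
    rw [dist_eq_norm]
    linarith

instance [CompleteSpace V] : CompleteSpace (Hol w V) := by
  refine Metric.complete_of_cauchySeq_tendsto fun u hu => ?_
  have hx : ∀ x, ∃ g, Tendsto (fun k => u k x) atTop (𝓝 g) := by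
    intro x
    apply cauchySeq_tendsto_of_complete
    rw [Metric.cauchySeq_iff] at hu ⊢
    intro ε hε
    obtain ⟨N, hN⟩ := hu ε hε
    refine ⟨N, fun m hm k hk => ?_⟩
    have := hN m hm k hk
    rw [dist_eq_norm] at this ⊢
    exact (norm_apply_le (u m - u k) x).trans_lt this
  choose g hg using hx
  obtain ⟨G, -, hG⟩ := exists_limit hu hg
  exact ⟨G, hG⟩

/-! ### Linear maps -/

section linear
variable [NormedSpace ℝ V] [NormedSpace ℝ W] [NormedSpace ℝ U]

/-- Evaluation at a point. -/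
def evalL (x : Y) : Hol w V →L[ℝ] V :=
  LinearMap.mkContinuous
    { toFun := fun f => f x
      map_add' := fun _ _ => rfl
      map_smul' := fun _ _ => rfl } 1 fun f => by
    show ‖f x‖ ≤ 1 * ‖f‖
    simpa using norm_apply_le f x

@[simp] lemma evalL_apply (x : Y) (f : Hol w V) : evalL x f = f x := rfl

/-- Composition with a continuous linear map. -/
def map (T : V →L[ℝ] W) : Hol w V →L[ℝ] Hol w W :=
  LinearMap.mkContinuous
    { toFun := fun f => ⟨fun x => T (f x), ⟨‖T‖ * N0 f, fun x =>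
          (T.le_opNorm _).trans (mul_le_mul_of_nonneg_left (le_N0 f x) (norm_nonneg _))⟩,
          ⟨‖T‖ * N1 f, fun x y => by
            rw [← map_sub, mul_assoc]
            exact (T.le_opNorm _).trans (mul_le_mul_of_nonneg_left (le_N1 f x y) (norm_nonneg _))⟩⟩
      map_add' := fun f g => by ext x; simp
      map_smul' := fun c f => by ext x; simp } ‖T‖ fun f => by
    rw [norm_def f, mul_add]
    refine norm_le_of (mul_nonneg (norm_nonneg _) (N0_nonneg f))
      (mul_nonneg (norm_nonneg _) (N1_nonneg f)) (fun x => ?_) fun x y => ?_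
    · exact (T.le_opNorm _).trans (mul_le_mul_of_nonneg_left (le_N0 f x) (norm_nonneg _))
    · show ‖T (f x) - T (f y)‖ ≤ _
      rw [← map_sub, mul_assoc]
      exact (T.le_opNorm _).trans (mul_le_mul_of_nonneg_left (le_N1 f x y) (norm_nonneg _))

@[simp] lemma map_apply (T : V →L[ℝ] W) (f : Hol w V) (x : Y) : map T f x = T (f x) := rfl

lemma norm_map_le (T : V →L[ℝ] W) (f : Hol w V) : ‖map T f‖ ≤ ‖T‖ * ‖f‖ := by
  refine ((map T).le_opNorm f).trans (mul_le_mul_of_nonneg_right ?_ (norm_nonneg _))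
  exact LinearMap.mkContinuous_norm_le _ (norm_nonneg _) _

/-- the pointwise value `B (f x) (g x)` -/
def bil (B : V →L[ℝ] W →L[ℝ] U) (f : Hol w V) (g : Hol w W) : Hol w U :=
  ⟨fun x => B (f x) (g x), ⟨‖B‖ * N0 f * N0 g, fun x => by
      have h0 := N0_nonneg f
      refine (B.le_opNorm₂ _ _).trans ?_
      gcongr
      · exact le_N0 f x
      · exact le_N0 g x⟩, ⟨‖B‖ * (N0 f * N1 g + N1 f * N0 g), fun x y => by
      have h1 : B (f x) (g x) - B (f y) (g y) = B (f x) (g x - g y) + B (f x - f y) (g y) := by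
        simp only [map_sub, _root_.sub_apply]; abel
      have h0 := N0_nonneg f
      have h2 := N1_nonneg f
      rw [h1, mul_add, add_mul]
      refine (norm_add_le _ _).trans (add_le_add ?_ ?_)
      · refine (B.le_opNorm₂ _ _).trans ?_
        rw [mul_assoc, mul_assoc, mul_assoc]
        gcongr
        · exact le_N0 f x
        · exact le_N1 g x y
      · refine (B.le_opNorm₂ _ _).trans ?_
        calc ‖B‖ * ‖f x - f y‖ * ‖g y‖ ≤ ‖B‖ * (N1 f * w x y) * N0 g := by
              gcongr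
              · exact le_N1 f x y
              · exact le_N0 g y
          _ = _ := by ring⟩⟩

@[simp] lemma bil_apply (B : V →L[ℝ] W →L[ℝ] U) (f : Hol w V) (g : Hol w W) (x : Y) :
    bil B f g x = B (f x) (g x) := rfl

lemma norm_bil_le (B : V →L[ℝ] W →L[ℝ] U) (f : Hol w V) (g : Hol w W) :
    ‖bil B f g‖ ≤ ‖B‖ * ‖f‖ * ‖g‖ := by
  have h : ‖bil B f g‖ ≤ ‖B‖ * N0 f * N0 g + ‖B‖ * (N0 f * N1 g + N1 f * N0 g) := by
    have h0 := N0_nonneg f
    have h1 := N1_nonneg f
    have h2 := N0_nonneg g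
    have h3 := N1_nonneg g
    refine norm_le_of (by positivity) (by positivity) (fun x => ?_) fun x y => ?_
    · refine (B.le_opNorm₂ _ _).trans ?_
      gcongr
      · exact le_N0 f x
      · exact le_N0 g x
    · have h1 : bil B f g x - bil B f g y = B (f x) (g x - g y) + B (f x - f y) (g y) := by
        simp only [bil_apply, map_sub, _root_.sub_apply]; abel
      rw [h1, mul_add, add_mul]
      refine (norm_add_le _ _).trans (add_le_add ?_ ?_)
      · refine (B.le_opNorm₂ _ _).trans ?_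
        rw [mul_assoc, mul_assoc, mul_assoc]
        gcongr
        · exact le_N0 f x
        · exact le_N1 g x y
      · refine (B.le_opNorm₂ _ _).trans ?_
        calc ‖B‖ * ‖f x - f y‖ * ‖g y‖ ≤ ‖B‖ * (N1 f * w x y) * N0 g := by
              gcongr
              · exact le_N1 f x y
              · exact le_N0 g y
          _ = _ := by ring
  refine h.trans ?_
  rw [norm_def f, norm_def g]
  have : 0 ≤ ‖B‖ * (N1 f * N1 g) :=
    mul_nonneg (norm_nonneg B) (mul_nonneg (N1_nonneg f) (N1_nonneg g))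
  nlinarith

/-- `bil` as a continuous bilinear map -/
def bilL (B : V →L[ℝ] W →L[ℝ] U) : Hol w V →L[ℝ] Hol w W →L[ℝ] Hol w U :=
  LinearMap.mkContinuous₂
    (LinearMap.mk₂ ℝ (bil B)
      (fun f f' g => by ext x; simp) (fun c f g => by ext x; simp)
      (fun f g g' => by ext x; simp) (fun c f g => by ext x; simp)) ‖B‖
    fun f g => norm_bil_le B f g

@[simp] lemma bilL_apply (B : V →L[ℝ] W →L[ℝ] U) (f : Hol w V) (g : Hol w W) (x : Y) :
    bilL B f g x = B (f x) (g x) := rfl

end linear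

/-! ### The ring structure -/

section ring
variable {A : Type*} [NormedCommRing A]

instance : Mul (Hol w A) := ⟨fun f g => ⟨fun x => f x * g x,
  ⟨N0 f * N0 g, fun x => (norm_mul_le _ _).trans
    (mul_le_mul (le_N0 f x) (le_N0 g x) (norm_nonneg _) (N0_nonneg f))⟩,
  ⟨N0 f * N1 g + N1 f * N0 g, fun x y => by
    have h1 : f x * g x - f y * g y = f x * (g x - g y) + (f x - f y) * g y := by ring
    rw [h1, add_mul]
    refine (norm_add_le _ _).trans (add_le_add ?_ ?_)
    · rw [mul_assoc]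
      exact (norm_mul_le _ _).trans
        (mul_le_mul (le_N0 f x) (le_N1 g x y) (norm_nonneg _) (N0_nonneg f))
    · calc ‖(f x - f y) * g y‖ ≤ ‖f x - f y‖ * ‖g y‖ := norm_mul_le _ _
        _ ≤ (N1 f * w x y) * N0 g :=
            mul_le_mul (le_N1 f x y) (le_N0 g y) (norm_nonneg _)
              (mul_nonneg (N1_nonneg f) (NNReal.coe_nonneg _))
        _ = _ := by ring⟩⟩⟩

/-- constant functions -/
def const (c : V) : Hol w V := ⟨fun _ => c, ⟨‖c‖, fun _ => le_rfl⟩, ⟨0, fun _ _ => by simp⟩⟩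

@[simp] lemma const_apply (c : V) (x : Y) : (const c : Hol w V) x = c := rfl

lemma norm_const_le (c : V) : ‖(const c : Hol w V)‖ ≤ ‖c‖ := by
  have := norm_le_of (f := (const c : Hol w V)) (norm_nonneg c) le_rfl (fun x => le_rfl)
    (fun x y => by simp)
  simpa using this

instance : One (Hol w A) := ⟨const 1⟩
instance : NatCast (Hol w A) := ⟨fun n => const n⟩
instance : IntCast (Hol w A) := ⟨fun n => const n⟩

/-- powers -/
def powAux (f : Hol w A) : ℕ → Hol w A
  | 0 => 1
  | n + 1 => powAux f n * f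

lemma powAux_apply (f : Hol w A) (n : ℕ) (x : Y) : powAux f n x = f x ^ n := by
  induction n with
  | zero => simp [powAux]; rfl
  | succ n ih => rw [pow_succ, ← ih]; rfl

instance : Pow (Hol w A) ℕ := ⟨powAux⟩

@[simp] lemma one_apply (x : Y) : (1 : Hol w A) x = 1 := rfl
@[simp] lemma mul_apply (f g : Hol w A) (x : Y) : (f * g) x = f x * g x := rfl
@[simp] lemma pow_apply (f : Hol w A) (n : ℕ) (x : Y) : (f ^ n) x = f x ^ n := powAux_apply f n x

instance : CommRing (Hol w A) :=
  coe_injective.commRing _ rfl rfl (fun _ _ => rfl) (fun _ _ => rfl) (fun _ => rfl)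
    (fun _ _ => rfl) (fun _ _ => rfl) (fun _ _ => rfl) (fun f n => funext fun x => pow_apply f n x)
    (fun _ => rfl) (fun _ => rfl)

instance : NormedCommRing (Hol w A) where
  dist_eq f g := by rw [dist_eq_norm, ← norm_neg]; congr 1; abel
  norm_mul_le f g := by
    have h : ‖f * g‖ ≤ N0 f * N0 g + (N0 f * N1 g + N1 f * N0 g) := by
      have h0 := N0_nonneg f
      have h1 := N1_nonneg f
      have h2 := N0_nonneg g
      have h3 := N1_nonneg g
      refine norm_le_of (by positivity) (by positivity) (fun x => ?_) fun x y => ?_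
      · exact (norm_mul_le _ _).trans
          (mul_le_mul (le_N0 f x) (le_N0 g x) (norm_nonneg _) (N0_nonneg f))
      · have h1 : (f * g) x - (f * g) y = f x * (g x - g y) + (f x - f y) * g y := by
          simp only [mul_apply]; ring
        rw [h1, add_mul]
        refine (norm_add_le _ _).trans (add_le_add ?_ ?_)
        · rw [mul_assoc]
          exact (norm_mul_le _ _).trans
            (mul_le_mul (le_N0 f x) (le_N1 g x y) (norm_nonneg _) (N0_nonneg f))
        · calc ‖(f x - f y) * g y‖ ≤ ‖f x - f y‖ * ‖g y‖ := norm_mul_le _ _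
            _ ≤ (N1 f * w x y) * N0 g :=
                mul_le_mul (le_N1 f x y) (le_N0 g y) (norm_nonneg _)
                  (mul_nonneg (N1_nonneg f) (NNReal.coe_nonneg _))
            _ = _ := by ring
    refine h.trans ?_
    rw [norm_def f, norm_def g]
    have : 0 ≤ N1 f * N1 g := mul_nonneg (N1_nonneg f) (N1_nonneg g)
    nlinarith
  mul_comm := mul_comm

variable {𝕜 : Type*} [NormedField 𝕜] [NormedAlgebra 𝕜 A]

instance : Algebra 𝕜 (Hol w A) :=
  Algebra.ofModule (fun c f g => by ext x; simp) (fun c f g => by ext x; simp)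

instance : NormedAlgebra 𝕜 (Hol w A) where
  norm_smul_le c f := norm_smul_le c f

/-- Evaluation as a ring homomorphism. -/
def evalRingHom (x : Y) : Hol w A →+* A where
  toFun f := f x
  map_zero' := rfl
  map_one' := rfl
  map_add' _ _ := rfl
  map_mul' _ _ := rfl

@[simp] lemma evalRingHom_apply (x : Y) (f : Hol w A) : evalRingHom x f = f x := rfl

lemma continuous_eval (x : Y) : Continuous fun f : Hol w V => f x := by
  refine (LipschitzWith.of_dist_le_mul (K := 1) fun f g => ?_).continuous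
  rw [dist_eq_norm, dist_eq_norm]
  simpa using norm_apply_le (f - g) x

/-- `NormedSpace.exp` in `Hol w A` is pointwise `NormedSpace.exp`. -/
lemma exp_apply [NormedAlgebra ℚ A] [CompleteSpace A] (f : Hol w A) (x : Y) :
    (NormedSpace.exp f) x = NormedSpace.exp (f x) :=
  NormedSpace.map_exp (evalRingHom (w := w) (A := A) x) (continuous_eval x) f

lemma sum_apply {ι : Type*} (s : Finset ι) (f : ι → Hol w V) (x : Y) :
    (∑ i ∈ s, f i) x = ∑ i ∈ s, f i x :=
  map_sum (⟨⟨fun g : Hol w V => g x, rfl⟩, fun _ _ => rfl⟩ : Hol w V →+ V) f s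

lemma prod_apply {ι : Type*} (s : Finset ι) (f : ι → Hol w A) (x : Y) :
    (∏ i ∈ s, f i) x = ∏ i ∈ s, f i x :=
  map_prod (evalRingHom (w := w) (A := A) x) f s

lemma det_apply {ι : Type*} [Fintype ι] [DecidableEq ι] (M : Matrix ι ι (Hol w A)) (x : Y) :
    M.det x = (Matrix.of fun i j => M i j x).det := by
  have := (evalRingHom (w := w) (A := A) x).map_det M
  exact this

end ring

section inv
variable {𝕜 : Type*} [NormedField 𝕜]

/-- The inverse of a function bounded away from zero. -/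
def inv (f : Hol w 𝕜) (c : ℝ) (hc : 0 < c) (h : ∀ x, c ≤ ‖f x‖) : Hol w 𝕜 :=
  ⟨fun x => (f x)⁻¹, ⟨c⁻¹, fun x => by
      rw [norm_inv]; exact inv_anti₀ hc (h x)⟩, ⟨c⁻¹ * c⁻¹ * N1 f, fun x y => by
      have hx : f x ≠ 0 := norm_pos_iff.1 (hc.trans_le (h x))
      have hy : f y ≠ 0 := norm_pos_iff.1 (hc.trans_le (h y))
      have h1 : (f x)⁻¹ - (f y)⁻¹ = (f x)⁻¹ * (f y)⁻¹ * (f y - f x) := by
        field_simp
      rw [h1, norm_mul, norm_mul, norm_inv, norm_inv, norm_sub_rev, mul_assoc _ (N1 f)]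
      have h2 := le_N1 f x y
      have h3 := inv_anti₀ hc (h x)
      have h4 := inv_anti₀ hc (h y)
      have h5 : 0 ≤ c⁻¹ := (inv_pos.2 hc).le
      gcongr⟩⟩

@[simp] lemma inv_apply (f : Hol w 𝕜) (c : ℝ) (hc : 0 < c) (h : ∀ x, c ≤ ‖f x‖) (x : Y) :
    f.inv c hc h x = (f x)⁻¹ := rfl

end inv

end Hol

/-! ### Onto by successive approximation -/

/-- If every `y` is the image of some `v` up to an error which is smaller by a factor `1/2`, in
some control function `N` with `‖v‖ ≤ C * N y` and `‖y‖ ≤ D * N y`, then `T` is onto. -/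
lemma surjective_of_approx {V W : Type*} [NormedAddCommGroup V] [NormedSpace ℝ V]
    [CompleteSpace V] [NormedAddCommGroup W] [NormedSpace ℝ W] (T : V →L[ℝ] W) (N : W → ℝ)
    (C D : ℝ) (hN0 : ∀ y, 0 ≤ N y) (hN : ∀ y, ‖y‖ ≤ D * N y)
    (h : ∀ y, ∃ v, ‖v‖ ≤ C * N y ∧ N (y - T v) ≤ N y / 2) : Function.Surjective T := by
  intro y
  choose g hg1 hg2 using h
  let r : ℕ → W := fun k => Nat.rec y (fun _ z => z - T (g z)) k
  have hr0 : r 0 = y := rfl
  have hrs : ∀ k, r (k + 1) = r k - T (g (r k)) := fun k => rfl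
  have hrN : ∀ k, N (r k) ≤ N y * (1 / 2) ^ k := by
    intro k
    induction k with
    | zero => simp [hr0]
    | succ k ih =>
      rw [hrs, pow_succ]
      have := hg2 (r k)
      linarith
  have hbd : ∀ k, ‖g (r k)‖ ≤ (|C| * N y) * (1 / 2) ^ k := by
    intro k
    have h1 : C * N (r k) ≤ |C| * (N y * (1 / 2) ^ k) :=
      (mul_le_mul_of_nonneg_right (le_abs_self C) (hN0 _)).trans
        (mul_le_mul_of_nonneg_left (hrN k) (abs_nonneg C))
    exact (hg1 _).trans (by linarith)
  have hsum : Summable fun k => g (r k) := by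
    refine Summable.of_norm_bounded
      (summable_geometric_of_lt_one (by norm_num) (by norm_num : (1 / 2 : ℝ) < 1) |>.mul_left
        (|C| * N y)) hbd
  refine ⟨∑' k, g (r k), ?_⟩
  have hpart : ∀ m, y - T (∑ k ∈ Finset.range m, g (r k)) = r m := by
    intro m
    induction m with
    | zero => simp [hr0]
    | succ m ih =>
      rw [Finset.sum_range_succ, map_add, hrs, ← ih]
      abel
  have hlim : Filter.Tendsto (fun m => y - T (∑ k ∈ Finset.range m, g (r k))) Filter.atTop
      (𝓝 (y - T (∑' k, g (r k)))) :=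
    tendsto_const_nhds.sub ((T.continuous.tendsto _).comp hsum.hasSum.tendsto_sum_nat)
  have hzero : Filter.Tendsto r Filter.atTop (𝓝 0) := by
    refine squeeze_zero_norm (a := fun k => |D| * (N y * (1 / 2) ^ k)) (fun k => ?_) ?_
    · exact (hN _).trans ((mul_le_mul_of_nonneg_right (le_abs_self D) (hN0 _)).trans
        (mul_le_mul_of_nonneg_left (hrN k) (abs_nonneg D)))
    · have := (tendsto_pow_atTop_nhds_zero_of_lt_one (by norm_num : (0 : ℝ) ≤ 1 / 2)
        (by norm_num)).const_mul (|D| * N y)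
      simpa [mul_assoc] using this
  have := tendsto_nhds_unique (hlim.congr hpart) hzero
  exact (sub_eq_zero.1 this).symm

end Vale.Agent.P272.K.LIN
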