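import Vale.Agent.P272.K.LIN.Jet
import Mathlib.Analysis.Calculus.FDeriv.CompCLM
import Mathlib.Analysis.Calculus.ContDiff.CPolynomial
import Mathlib.Analysis.Normed.Operator.Bilinear
import Mathlib.Analysis.Normed.Operator.NormedSpace
import Mathlib.Analysis.Calculus.FDeriv.Prod
import Mathlib.Analysis.Calculus.FDeriv.Mul

/-! Chain rule and product rule for two-jets. -/

open scoped ContDiff Topology
open Filter

noncomputable section

set_option linter.unusedVariables false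
set_option linter.unusedSectionVars false
set_option maxSynthPendingDepth 3

namespace Vale.Agent.P272.K.LIN

variable {E F : Type*} [NormedAddCommGroup E] [NormedSpace ℝ E] [NormedAddCommGroup F]
  [NormedSpace ℝ F]

lemma contDiff_clm_prod {G H K L : Type*} [NormedAddCommGroup G] [NormedSpace ℝ G]
    [NormedAddCommGroup H] [NormedSpace ℝ H] [NormedAddCommGroup K] [NormedSpace ℝ K]
    [NormedAddCommGroup L] [NormedSpace ℝ L] {f : G → H →L[ℝ] K} {g : G → H →L[ℝ] L}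
    (hf : ContDiff ℝ ∞ f) (hg : ContDiff ℝ ∞ g) : ContDiff ℝ ∞ fun x => (f x).prod (g x) := by
  have h1 : (fun x => (f x).prod (g x)) = fun x =>
      (ContinuousLinearMap.inl ℝ K L).comp (f x) + (ContinuousLinearMap.inr ℝ K L).comp (g x) := by
    funext x
    ext v <;> simp
  rw [h1]
  exact (contDiff_const.clm_comp hf).add (contDiff_const.clm_comp hg)

/-- The linear map of jets induced by a map with first and second derivatives `A`, `B`. -/
def JT (A : E →L[ℝ] F) (B : E →L[ℝ] E →L[ℝ] F) : Jet F →L[ℝ] Jet E :=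
  (ContinuousLinearMap.fst ℝ ℝ _).prod
    ((((ContinuousLinearMap.compL ℝ E F ℝ).flip A).comp
      ((ContinuousLinearMap.fst ℝ _ _).comp (ContinuousLinearMap.snd ℝ ℝ _))).prod
    ((((ContinuousLinearMap.compL ℝ E (E →L[ℝ] F) (E →L[ℝ] ℝ)).flip B).comp
        (ContinuousLinearMap.compL ℝ E F ℝ)).comp
        ((ContinuousLinearMap.fst ℝ _ _).comp (ContinuousLinearMap.snd ℝ ℝ _)) +
      ((ContinuousLinearMap.compL ℝ E (F →L[ℝ] ℝ) (E →L[ℝ] ℝ)
        ((ContinuousLinearMap.compL ℝ E F ℝ).flip A)).comp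
        ((ContinuousLinearMap.compL ℝ E F (F →L[ℝ] ℝ)).flip A)).comp
        ((ContinuousLinearMap.snd ℝ _ _).comp (ContinuousLinearMap.snd ℝ ℝ _))))

lemma JT_fst (A : E →L[ℝ] F) (B : E →L[ℝ] E →L[ℝ] F) (p : Jet F) : (JT A B p).1 = p.1 := rfl

lemma JT_snd_fst (A : E →L[ℝ] F) (B : E →L[ℝ] E →L[ℝ] F) (p : Jet F) :
    (JT A B p).2.1 = p.2.1.comp A := rfl

lemma JT_snd_snd (A : E →L[ℝ] F) (B : E →L[ℝ] E →L[ℝ] F) (p : Jet F) (u v : E) :
    (JT A B p).2.2 u v = p.2.1 (B u v) + p.2.2 (A u) (A v) := rfl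

lemma contDiff_JT : ContDiff ℝ ∞ fun q : (E →L[ℝ] F) × (E →L[ℝ] E →L[ℝ] F) => JT q.1 q.2 := by
  unfold JT
  have h1 : ContDiff ℝ ∞ fun q : (E →L[ℝ] F) × (E →L[ℝ] E →L[ℝ] F) =>
      (ContinuousLinearMap.compL ℝ E F ℝ).flip q.1 :=
    (ContinuousLinearMap.contDiff _).comp contDiff_fst
  have h2 : ContDiff ℝ ∞ fun q : (E →L[ℝ] F) × (E →L[ℝ] E →L[ℝ] F) =>
      (ContinuousLinearMap.compL ℝ E (E →L[ℝ] F) (E →L[ℝ] ℝ)).flip q.2 :=
    (ContinuousLinearMap.contDiff _).comp contDiff_snd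
  have h3 : ContDiff ℝ ∞ fun q : (E →L[ℝ] F) × (E →L[ℝ] E →L[ℝ] F) =>
      (ContinuousLinearMap.compL ℝ E F (F →L[ℝ] ℝ)).flip q.1 :=
    (ContinuousLinearMap.contDiff _).comp contDiff_fst
  have h4 : ContDiff ℝ ∞ fun q : (E →L[ℝ] F) × (E →L[ℝ] E →L[ℝ] F) =>
      ContinuousLinearMap.compL ℝ E (F →L[ℝ] ℝ) (E →L[ℝ] ℝ)
        ((ContinuousLinearMap.compL ℝ E F ℝ).flip q.1) :=
    (ContinuousLinearMap.contDiff _).comp h1
  have h5 := h1.clm_comp (contDiff_const (c := (ContinuousLinearMap.fst ℝ (F →L[ℝ] ℝ)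
    (F →L[ℝ] F →L[ℝ] ℝ)).comp (ContinuousLinearMap.snd ℝ ℝ
      ((F →L[ℝ] ℝ) × (F →L[ℝ] F →L[ℝ] ℝ)))))
  have h6 := (h2.clm_comp (contDiff_const (c := ContinuousLinearMap.compL ℝ E F ℝ))).clm_comp
    (contDiff_const (c := (ContinuousLinearMap.fst ℝ (F →L[ℝ] ℝ)
    (F →L[ℝ] F →L[ℝ] ℝ)).comp (ContinuousLinearMap.snd ℝ ℝ
      ((F →L[ℝ] ℝ) × (F →L[ℝ] F →L[ℝ] ℝ)))))
  have h7 := (h4.clm_comp h3).clm_comp
    (contDiff_const (c := (ContinuousLinearMap.snd ℝ (F →L[ℝ] ℝ)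
    (F →L[ℝ] F →L[ℝ] ℝ)).comp (ContinuousLinearMap.snd ℝ ℝ
      ((F →L[ℝ] ℝ) × (F →L[ℝ] F →L[ℝ] ℝ)))))
  have h8 := h6.add h7
  have h9 : ContDiff ℝ ∞ fun q : (E →L[ℝ] F) × (E →L[ℝ] E →L[ℝ] F) =>
      ContinuousLinearMap.fst ℝ ℝ ((F →L[ℝ] ℝ) × (F →L[ℝ] F →L[ℝ] ℝ)) := contDiff_const
  exact contDiff_clm_prod h9 (contDiff_clm_prod h5 h8)

/-- The two-jet of a composition. -/
lemma jet_comp {g : F → ℝ} {φ : E → F} {y : E} (hg : ContDiffAt ℝ 2 g (φ y))
    (hφ : ContDiffAt ℝ 2 φ y) :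
    jet (fun z => g (φ z)) y = JT (fderiv ℝ φ y) (fderiv ℝ (fderiv ℝ φ) y) (jet g (φ y)) := by
  have hg1 : ∀ᶠ z in 𝓝 (φ y), DifferentiableAt ℝ g z := by
    filter_upwards [hg.eventually (by simp)] with z hz
    exact hz.differentiableAt (by simp)
  have hφ1 : ∀ᶠ z in 𝓝 y, DifferentiableAt ℝ φ z := by
    filter_upwards [hφ.eventually (by simp)] with z hz
    exact hz.differentiableAt (by simp)
  have h1 : fderiv ℝ (fun z => g (φ z)) =ᶠ[𝓝 y] fun z => (fderiv ℝ g (φ z)).comp (fderiv ℝ φ z) := by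
    filter_upwards [hφ.continuousAt.eventually hg1, hφ1] with z hz1 hz2
    exact fderiv_comp z hz1 hz2
  have hg2 : DifferentiableAt ℝ (fderiv ℝ g) (φ y) :=
    (hg.fderiv_right (m := 1) (by norm_num)).differentiableAt (by simp)
  have hφ2 : DifferentiableAt ℝ (fderiv ℝ φ) y :=
    (hφ.fderiv_right (m := 1) (by norm_num)).differentiableAt (by simp)
  have hφd : DifferentiableAt ℝ φ y := hφ.differentiableAt (by simp)
  have h2 : HasFDerivAt (fun z => (fderiv ℝ g (φ z))) ((fderiv ℝ (fderiv ℝ g) (φ y)).comp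
      (fderiv ℝ φ y)) y := hg2.hasFDerivAt.comp y hφd.hasFDerivAt
  have h3 := h2.clm_comp hφ2.hasFDerivAt
  have h4 : fderiv ℝ (fderiv ℝ (fun z => g (φ z))) y = _ := (h3.congr_of_eventuallyEq h1).fderiv
  unfold jet
  refine Prod.ext rfl (Prod.ext ?_ ?_)
  · exact h1.self_of_nhds
  · show fderiv ℝ (fderiv ℝ (fun z => g (φ z))) y = _
    rw [h4]
    ext u v
    rw [JT_snd_snd]
    simp

/-- The linear map of jets given by multiplication by a function with jet `j`. -/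
def JM (j : Jet E) : Jet E →L[ℝ] Jet E :=
  (j.1 • ContinuousLinearMap.fst ℝ ℝ _).prod
    ((j.1 • (ContinuousLinearMap.fst ℝ _ _).comp (ContinuousLinearMap.snd ℝ ℝ _) +
      (ContinuousLinearMap.fst ℝ ℝ _).smulRight j.2.1).prod
    (j.1 • (ContinuousLinearMap.snd ℝ _ _).comp (ContinuousLinearMap.snd ℝ ℝ _) +
      (ContinuousLinearMap.fst ℝ ℝ _).smulRight j.2.2 +
      (ContinuousLinearMap.smulRightL ℝ E (E →L[ℝ] ℝ) j.2.1).comp
        ((ContinuousLinearMap.fst ℝ _ _).comp (ContinuousLinearMap.snd ℝ ℝ _)) +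
      ((ContinuousLinearMap.smulRightL ℝ E (E →L[ℝ] ℝ)).flip j.2.1).comp
        ((ContinuousLinearMap.fst ℝ _ _).comp (ContinuousLinearMap.snd ℝ ℝ _))))

lemma JM_fst (j p : Jet E) : (JM j p).1 = j.1 * p.1 := rfl

lemma JM_snd_fst (j p : Jet E) : (JM j p).2.1 = j.1 • p.2.1 + p.1 • j.2.1 := rfl

lemma JM_snd_snd (j p : Jet E) (u v : E) : (JM j p).2.2 u v =
    j.1 * p.2.2 u v + p.1 * j.2.2 u v + j.2.1 u * p.2.1 v + p.2.1 u * j.2.1 v := rfl

lemma contDiff_JM : ContDiff ℝ ∞ (JM (E := E)) := by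
  unfold JM
  have h1 : ContDiff ℝ ∞ fun j : Jet E => j.1 := contDiff_fst
  have h2 : ContDiff ℝ ∞ fun j : Jet E => j.2.1 := contDiff_fst.comp contDiff_snd
  have h3 : ContDiff ℝ ∞ fun j : Jet E => j.2.2 := contDiff_snd.comp contDiff_snd
  refine contDiff_clm_prod (h1.smul contDiff_const) (contDiff_clm_prod ?_ ?_)
  · refine (h1.smul contDiff_const).add ?_
    exact ((ContinuousLinearMap.smulRightL ℝ (Jet E) (E →L[ℝ] ℝ)
      (ContinuousLinearMap.fst ℝ ℝ _)).contDiff).comp h2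
  · refine (((h1.smul contDiff_const).add ?_).add ?_).add ?_
    · exact ((ContinuousLinearMap.smulRightL ℝ (Jet E) (E →L[ℝ] E →L[ℝ] ℝ)
        (ContinuousLinearMap.fst ℝ ℝ _)).contDiff).comp h3
    · exact ((ContinuousLinearMap.contDiff _).comp h2).clm_comp contDiff_const
    · exact ((ContinuousLinearMap.contDiff _).comp h2).clm_comp contDiff_const

/-- The two-jet of a product. -/
lemma jet_mul {κ w : E → ℝ} {y : E} (hκ : ContDiffAt ℝ 2 κ y) (hw : ContDiffAt ℝ 2 w y) :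
    jet (fun z => κ z * w z) y = JM (jet κ y) (jet w y) := by
  have hκ1 : ∀ᶠ z in 𝓝 y, DifferentiableAt ℝ κ z := by
    filter_upwards [hκ.eventually (by simp)] with z hz
    exact hz.differentiableAt (by simp)
  have hw1 : ∀ᶠ z in 𝓝 y, DifferentiableAt ℝ w z := by
    filter_upwards [hw.eventually (by simp)] with z hz
    exact hz.differentiableAt (by simp)
  have h1 : fderiv ℝ (fun z => κ z * w z) =ᶠ[𝓝 y]
      fun z => κ z • fderiv ℝ w z + w z • fderiv ℝ κ z := by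
    filter_upwards [hκ1, hw1] with z hz1 hz2
    exact (hz1.hasFDerivAt.mul hz2.hasFDerivAt).fderiv
  have hκ2 : DifferentiableAt ℝ (fderiv ℝ κ) y :=
    (hκ.fderiv_right (m := 1) (by norm_num)).differentiableAt (by simp)
  have hw2 : DifferentiableAt ℝ (fderiv ℝ w) y :=
    (hw.fderiv_right (m := 1) (by norm_num)).differentiableAt (by simp)
  have hκd := hκ1.self_of_nhds
  have hwd := hw1.self_of_nhds
  have h3 := (hκd.hasFDerivAt.smul hw2.hasFDerivAt).add (hwd.hasFDerivAt.smul hκ2.hasFDerivAt)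
  have h4 : fderiv ℝ (fderiv ℝ (fun z => κ z * w z)) y = _ :=
    (h3.congr_of_eventuallyEq h1).fderiv
  unfold jet
  refine Prod.ext rfl (Prod.ext ?_ ?_)
  · exact h1.self_of_nhds
  · show fderiv ℝ (fderiv ℝ (fun z => κ z * w z)) y = _
    rw [h4]
    ext u v
    rw [JM_snd_snd]
    simp
    ring

/-- The two-jet of a smooth function is smooth. -/
lemma contDiffAt_jet {k : WithTop ℕ∞} {f : E → ℝ} {y : E} (hf : ContDiffAt ℝ (k + 2) f y) :
    ContDiffAt ℝ k (jet f) y := by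
  have h1 : ContDiffAt ℝ (k + 1) (fderiv ℝ f) y := hf.fderiv_right (by
    rw [add_assoc]; norm_num)
  have h2 : ContDiffAt ℝ k (fderiv ℝ (fderiv ℝ f)) y := h1.fderiv_right le_rfl
  exact (hf.of_le (by exact le_self_add)).prodMk ((h1.of_le (by exact le_self_add)).prodMk h2)

lemma jet_congr {f g : E → ℝ} {y : E} (h : f =ᶠ[𝓝 y] g) : jet f y = jet g y := by
  unfold jet
  rw [h.fderiv_eq, h.fderiv.fderiv_eq, h.self_of_nhds]

end Vale.Agent.P272.K.LIN
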