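import Vale.Agent.P272.K.LIN.DescIn
import Vale.Agent.P272.K.N.Final

/-! The linear theorem in the form consumed by the continuity method, from patching. -/

open scoped Manifold ContDiff Topology NNReal
open Filter Metric Set

set_option maxSynthPendingDepth 3
set_option linter.unusedSectionVars false

noncomputable section

namespace Vale.Agent.P272.K.LIN

/-- The output of the patching: `Λ - L` is onto for one `Λ > 0`. -/
def PatchStatement (E : Type*) [NormedAddCommGroup E] [NormedSpace ℝ E] [FiniteDimensional ℝ E]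
    (X : Type*) [TopologicalSpace X] [ChartedSpace E X] (α : ℝ) : Prop :=
  ∀ (𝒞 : Cov E X) (L : 𝒞.C2 α →L[ℝ] Hol (𝒞.w α) ℝ)
    (a : Fin 𝒞.N → E → (E →L[ℝ] E →L[ℝ] ℝ) →L[ℝ] ℝ)
    (b : Fin 𝒞.N → E → (E →L[ℝ] ℝ) →L[ℝ] ℝ), Cov.Ell 𝒞 α L a b →
    ∃ Λ : ℝ, 0 < Λ ∧ Function.Surjective fun v => Λ • 𝒞.incl α v - L v

/-- The linear theorem for all `l > 0`, from patching. -/
theorem bijective_of_patch {E : Type*} [NormedAddCommGroup E] [NormedSpace ℝ E]
    [FiniteDimensional ℝ E] {X : Type*} [TopologicalSpace X] [ChartedSpace E X] [T2Space X]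
    [CompactSpace X] [RSm E X] {α : ℝ} (h0 : 0 < α) (h1 : α < 1) (hP : PatchStatement E X α)
    {𝒞 : Cov E X} {L : 𝒞.C2 α →L[ℝ] Hol (𝒞.w α) ℝ}
    {a : Fin 𝒞.N → E → (E →L[ℝ] E →L[ℝ] ℝ) →L[ℝ] ℝ}
    {b : Fin 𝒞.N → E → (E →L[ℝ] ℝ) →L[ℝ] ℝ} (h : Cov.Ell 𝒞 α L a b) (l : ℝ) (hl : 0 < l) :
    Function.Bijective fun v => l • 𝒞.incl α v - L v := by
  obtain ⟨Λ, hΛ, hs⟩ := hP 𝒞 L a b h
  exact h.bijective h0 h1 Λ hΛ hs l hl

theorem ltx_of_patch {n : ℕ} {X : Type*} [TopologicalSpace X] [ChartedSpace (Cm n) X] [T2Space X]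
    [CompactSpace X] [IsManifold (modelWithCornersSelf ℂ (Cm n)) ω X] {α : ℝ} (h0 : 0 < α)
    (h1 : α < 1) (hP : PatchStatement (Cm n) X α) : N.LTX n X α := by
  intro 𝒞 L a b h
  have := (bijective_of_patch h0 h1 hP h 1 one_pos).2
  simpa using this

end Vale.Agent.P272.K.LIN
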