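import Vale.Agent.P272.K.LIN.Ell

/-! Products of Hölder functions; jets of cut off functions on `X`. -/

open scoped NNReal Topology ContDiff
open Filter Set Metric

noncomputable section

set_option linter.unusedVariables false
set_option linter.unusedSectionVars false
set_option maxSynthPendingDepth 3

namespace Vale.Agent.P272.K.LIN

variable {E : Type*} [NormedAddCommGroup E] [NormedSpace ℝ E]
  {V W V' : Type*} [NormedAddCommGroup V] [NormedSpace ℝ V]
  [NormedAddCommGroup W] [NormedSpace ℝ W] [NormedAddCommGroup V'] [NormedSpace ℝ V']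

lemma HB.sup_nonneg {α A B : ℝ} {f : E → V} (h : HB α f A B) : 0 ≤ A :=
  (norm_nonneg _).trans (h.sup 0)

lemma HB.mono' {α : ℝ} {f : E → V} {A B A' B' : ℝ}
    (h : HB α f A B) (hA : A ≤ A') (hB : B ≤ B') : HB α f A' B' :=
  ⟨fun x => (h.sup x).trans hA, fun x y => (h.hol x y).trans
    (mul_le_mul_of_nonneg_right hB (Real.rpow_nonneg (norm_nonneg _) _))⟩

lemma hb_apply {α : ℝ} {c : E → V →L[ℝ] W} {g : E → V} {M K A B : ℝ} (hM : 0 ≤ M) (hK : 0 ≤ K)
    (hc : HB α c M K) (hg : HB α g A B) :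
    HB α (fun x => c x (g x)) (M * A) (M * B + K * A) := by
  have hA : 0 ≤ A := hg.sup_nonneg
  refine ⟨fun x => ?_, fun x y => ?_⟩
  · exact ((c x).le_opNorm _).trans (mul_le_mul (hc.sup x) (hg.sup x) (norm_nonneg _) hM)
  · have h1 : c x (g x) - c y (g y) = c x (g x - g y) + (c x - c y) (g y) := by
      rw [map_sub, _root_.sub_apply]; abel
    have hr : 0 ≤ ‖x - y‖ ^ α := Real.rpow_nonneg (norm_nonneg _) _
    rw [h1, add_mul]
    refine (norm_add_le _ _).trans (add_le_add ?_ ?_)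
    · rw [mul_assoc]
      exact ((c x).le_opNorm _).trans (mul_le_mul (hc.sup x) (hg.hol x y) (norm_nonneg _) hM)
    · calc ‖(c x - c y) (g y)‖ ≤ ‖c x - c y‖ * ‖g y‖ := (c x - c y).le_opNorm _
        _ ≤ (K * ‖x - y‖ ^ α) * A := mul_le_mul (hc.hol x y) (hg.sup y) (norm_nonneg _)
            (mul_nonneg hK hr)
        _ = _ := by ring

/-- A coefficient which is Hölder only on `K` times a Hölder function supported in `K`. -/
lemma hb_cut {α : ℝ} (B : V' →L[ℝ] V →L[ℝ] W) {a : E → V'} {c : E → V} {K : Set E} {M N : ℝ}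
    (hc : HB α c M N) (hc0 : ∀ y, y ∉ K → c y = 0) (ha : ∃ A, ∀ y ∈ K, ‖a y‖ ≤ A)
    (hah : ∃ A, ∀ y ∈ K, ∀ y' ∈ K, ‖a y - a y'‖ ≤ A * ‖y - y'‖ ^ α) :
    ∃ A' B', 0 ≤ A' ∧ 0 ≤ B' ∧ HB α (fun y => B (a y) (c y)) A' B' := by
  obtain ⟨A, hA⟩ := ha
  obtain ⟨D, hD⟩ := hah
  refine ⟨‖B‖ * |A| * |M|, ‖B‖ * |A| * |N| + ‖B‖ * |D| * |M|, by positivity, by positivity,
    fun y => ?_, fun y y' => ?_⟩
  · by_cases hy : y ∈ K
    · refine (B.le_opNorm₂ _ _).trans ?_
      have h1 := (hA y hy).trans (le_abs_self A)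
      have h2 := (hc.sup y).trans (le_abs_self M)
      gcongr
    · simp only [hc0 y hy, map_zero, norm_zero]
      positivity
  · have hr : 0 ≤ ‖y - y'‖ ^ α := Real.rpow_nonneg (norm_nonneg _) _
    have hN : ‖c y - c y'‖ ≤ |N| * ‖y - y'‖ ^ α :=
      (hc.hol y y').trans (mul_le_mul_of_nonneg_right (le_abs_self _) hr)
    have key : ∀ z ∈ K, ‖B (a z) (c y - c y')‖ ≤ ‖B‖ * |A| * |N| * ‖y - y'‖ ^ α := by
      intro z hz
      refine (B.le_opNorm₂ _ _).trans ?_
      have h1 := (hA z hz).trans (le_abs_self A)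
      calc ‖B‖ * ‖a z‖ * ‖c y - c y'‖ ≤ ‖B‖ * |A| * (|N| * ‖y - y'‖ ^ α) := by gcongr
        _ = _ := by ring
    have hrest : 0 ≤ ‖B‖ * |D| * |M| * ‖y - y'‖ ^ α := by positivity
    by_cases hy : y ∈ K
    · by_cases hy' : y' ∈ K
      · have h1 : B (a y) (c y) - B (a y') (c y') = B (a y) (c y - c y') +
            B (a y - a y') (c y') := by
          simp only [map_sub, _root_.sub_apply]; abel
        rw [h1]
        refine (norm_add_le _ _).trans ?_
        have h2 : ‖B (a y - a y') (c y')‖ ≤ ‖B‖ * |D| * |M| * ‖y - y'‖ ^ α := by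
          refine (B.le_opNorm₂ _ _).trans ?_
          have h3 : ‖a y - a y'‖ ≤ |D| * ‖y - y'‖ ^ α :=
            (hD y hy y' hy').trans (mul_le_mul_of_nonneg_right (le_abs_self _) hr)
          have h4 := (hc.sup y').trans (le_abs_self M)
          calc ‖B‖ * ‖a y - a y'‖ * ‖c y'‖ ≤ ‖B‖ * (|D| * ‖y - y'‖ ^ α) * |M| := by gcongr
            _ = _ := by ring
        have := key y hy
        nlinarith
      · have h1 : B (a y') (c y') = 0 := by rw [hc0 y' hy', map_zero]
        have h2 : B (a y) (c y) = B (a y) (c y - c y') := by rw [hc0 y' hy', sub_zero]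
        show ‖B (a y) (c y) - B (a y') (c y')‖ ≤ _
        rw [h1, sub_zero, h2]
        have := key y hy
        nlinarith
    · have h1 : B (a y) (c y) = 0 := by rw [hc0 y hy, map_zero]
      show ‖B (a y) (c y) - B (a y') (c y')‖ ≤ _
      rw [h1, zero_sub, norm_neg]
      by_cases hy' : y' ∈ K
      · have h2 : ‖B (a y') (c y')‖ = ‖B (a y') (c y - c y')‖ := by
          rw [hc0 y hy, zero_sub, map_neg, norm_neg]
        rw [h2]
        have := key y' hy'
        nlinarith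
      · rw [hc0 y' hy', map_zero, norm_zero]
        positivity

namespace Cov

variable {X : Type*} [TopologicalSpace X] [ChartedSpace E X] [FiniteDimensional ℝ E]
  (𝒞 : Cov E X)

/-- The coefficient in the formula for the jets of `ext0 e (β v)`. -/
def coef (e : OpenPartialHomeomorph X E) (β : E → ℝ) (i : Fin 𝒞.N) (y : E) :
    Jet E →L[ℝ] Jet E :=
  (TJ e (𝒞.e i) (𝒞.e i (e.symm y))).comp (JM (𝒞.η i (e.symm y) • jet β y))

lemma jet_eq_zero {β : E → ℝ} {K : Set E} (hK : IsClosed K) (h : ∀ y, y ∉ K → β y = 0) {y : E}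
    (hy : y ∉ K) : jet β y = 0 := by
  have h1 : β =ᶠ[𝓝 y] fun _ => 0 := by
    filter_upwards [hK.isOpen_compl.mem_nhds hy] with z hz using h z hz
  rw [jet_congr h1]
  unfold jet
  simp

lemma JM_zero : JM (0 : Jet E) = 0 := by
  unfold JM
  ext p <;> simp

lemma JM_smul (c : ℝ) (j p : Jet E) : JM (c • j) p = c • JM j p := by
  refine Prod.ext ?_ (Prod.ext ?_ ?_)
  · show (c • j).1 * p.1 = c • (j.1 * p.1)
    show c * j.1 * p.1 = c * (j.1 * p.1)
    ring
  · show (c * j.1) • p.2.1 + p.1 • (c • j.2.1) = c • (j.1 • p.2.1 + p.1 • j.2.1)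
    rw [smul_add, smul_smul, smul_smul, smul_smul, mul_comm c p.1]
  · ext u v
    show (JM (c • j) p).2.2 u v = c * (JM j p).2.2 u v
    rw [JM_snd_snd, JM_snd_snd]
    show c * j.1 * p.2.2 u v + p.1 * (c * j.2.2 u v) + c * j.2.1 u * p.2.1 v +
      p.2.1 u * (c * j.2.1 v) = _
    ring

lemma coef_eq_zero_of_η {e : OpenPartialHomeomorph X E} {β : E → ℝ} {i : Fin 𝒞.N} {y : E}
    (hy : 𝒞.η i (e.symm y) = 0) : 𝒞.coef e β i y = 0 := by
  rw [coef, hy, zero_smul, JM_zero, ContinuousLinearMap.comp_zero]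

lemma coef_eq_zero {e : OpenPartialHomeomorph X E} {β : E → ℝ} {K : Set E} (hK : IsClosed K)
    (h : ∀ y, y ∉ K → β y = 0) (i : Fin 𝒞.N) {y : E} (hy : y ∉ K) : 𝒞.coef e β i y = 0 := by
  rw [coef, jet_eq_zero hK h hy, smul_zero, JM_zero, ContinuousLinearMap.comp_zero]

lemma coef_contDiff [T2Space X] [RSm E X] {e : OpenPartialHomeomorph X E} (he : e ∈ atlas E X)
    {β : E → ℝ} (hβ : ContDiff ℝ ∞ β) {K : Set E} (hK : IsCompact K) (hKt : K ⊆ e.target)
    (h : ∀ y, y ∉ K → β y = 0) (i : Fin 𝒞.N) : ContDiff ℝ ∞ (𝒞.coef e β i) := by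
  rw [contDiff_iff_contDiffAt]
  intro y
  by_cases hy : y ∈ K
  · have hyt := hKt hy
    have hsrc := e.map_target hyt
    by_cases hs : e.symm y ∈ (𝒞.e i).source
    · have h1 : ContDiffAt ℝ ∞ (fun y => 𝒞.η i (e.symm y)) y := (𝒞.η_ck i).at_target he hyt
      have h2 : ContDiffAt ℝ ∞ (fun y => 𝒞.e i (e.symm y)) y := by
        have := RSm.trans e he (𝒞.e i) (𝒞.mem i) (e.symm y) hsrc hs
        rwa [e.right_inv hyt] at this
      have h3 : ContDiffAt ℝ ∞ (fun y => TJ e (𝒞.e i) (𝒞.e i (e.symm y))) y :=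
        ContDiffAt.comp (g := TJ e (𝒞.e i)) (f := fun y => 𝒞.e i (e.symm y)) y
          (contDiffAt_TJ he (𝒞.mem i) hsrc hs) h2
      have h4 : ContDiffAt ℝ ∞ (fun y => JM (𝒞.η i (e.symm y) • jet β y)) y := by
        have h5 : ContDiffAt ℝ ∞ (jet β) y := contDiffAt_jet (k := ∞) hβ.contDiffAt
        exact ContDiffAt.comp (g := JM) y contDiff_JM.contDiffAt (h1.smul h5)
      exact h3.clm_comp h4
    · -- `η i = 0` near `e.symm y`
      have h1 : ∀ᶠ z in 𝓝 (e.symm y), 𝒞.η i z = 0 :=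
        ext0_eventually_zero (K := closedBall (𝒞.c i) (3 * 𝒞.r i)) (isCompact_closedBall _ _)
          (𝒞.sub i) (fun y hy => by
            apply (𝒞.bump i).zero_of_le_dist
            simp only [mem_closedBall, not_le] at hy
            exact hy.le) hs
      have h2 : ContinuousAt e.symm y := e.symm.continuousAt hyt
      have h3 : 𝒞.coef e β i =ᶠ[𝓝 y] fun _ => 0 := by
        filter_upwards [h2.eventually h1] with z hz
        exact 𝒞.coef_eq_zero_of_η hz
      exact contDiffAt_const.congr_of_eventuallyEq h3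
  · have h3 : 𝒞.coef e β i =ᶠ[𝓝 y] fun _ => 0 := by
      filter_upwards [hK.isClosed.isOpen_compl.mem_nhds hy] with z hz
      exact 𝒞.coef_eq_zero hK.isClosed h i hz
    exact contDiffAt_const.congr_of_eventuallyEq h3

/-- The cut off jets of `ext0 e (β v)`. -/
lemma Jf_ext0 [T2Space X] [RSm E X] {e : OpenPartialHomeomorph X E} (he : e ∈ atlas E X)
    {β : E → ℝ} (hβ : ContDiff ℝ ∞ β) {K : Set E} (hK : IsCompact K) (hKt : K ⊆ e.target)
    (h : ∀ y, y ∉ K → β y = 0) {v : E → ℝ} (hv : ContDiff ℝ 2 v) (i : Fin 𝒞.N) (x : X) :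
    𝒞.Jf i (ext0 e fun y => β y * v y) x = ext0 e (fun y => 𝒞.coef e β i y (jet v y)) x := by
  have hz : ∀ y, y ∉ K → β y * v y = 0 := fun y hy => by rw [h y hy, zero_mul]
  have hck : CkFn E 2 (ext0 e fun y => β y * v y) :=
    ext0_ck two_le_inf he hK hKt hz fun y _ => (hβ.contDiffAt.of_le two_le_inf).mul hv.contDiffAt
  by_cases hη : 𝒞.η i x = 0
  · rw [Jf, hη, zero_smul]
    by_cases hx : x ∈ e.source
    · rw [ext0_of_mem hx, 𝒞.coef_eq_zero_of_η (by rw [e.left_inv hx]; exact hη),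
        _root_.zero_apply]
    · rw [ext0_of_notMem hx]
  · have hxi := (𝒞.η_ne_zero hη).1
    by_cases hx : x ∈ e.source
    · rw [Jf, jet_change hck he (𝒞.mem i) hx hxi, ext0_of_mem hx, coef, e.left_inv hx]
      have h1 : (fun y => ext0 e (fun y => β y * v y) (e.symm y)) =ᶠ[𝓝 (e x)]
          fun y => β y * v y := by
        filter_upwards [e.open_target.mem_nhds (e.map_source hx)] with y hy
        rw [ext0_of_mem (e.map_target hy), e.right_inv hy]
      rw [jet_congr h1, jet_mul (hβ.contDiffAt.of_le two_le_inf) hv.contDiffAt]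
      show _ = TJ e (𝒞.e i) (𝒞.e i x) (JM (𝒞.η i x • jet β (e x)) (jet v (e x)))
      rw [JM_smul, map_smul]
    · rw [ext0_of_notMem hx, Jf]
      have h1 := ext0_eventually_zero hK hKt hz hx
      have h2 : Tendsto (𝒞.e i).symm (𝓝 (𝒞.e i x)) (𝓝 x) := by
        have := (𝒞.e i).symm.continuousAt (x := 𝒞.e i x) ((𝒞.e i).map_source hxi)
        unfold ContinuousAt at this
        rwa [(𝒞.e i).left_inv hxi] at this
      have h3 : (fun y => ext0 e (fun y => β y * v y) ((𝒞.e i).symm y)) =ᶠ[𝓝 (𝒞.e i x)]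
          fun _ => 0 := h2.eventually h1
      rw [jet_congr h3]
      unfold jet
      simp

end Cov

end Vale.Agent.P272.K.LIN
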