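import Vale.Agent.P272.K.LIN.Patch0
import Vale.Agent.P272.K.V.Final

/-! The local approximate solution. -/

open scoped NNReal Topology ContDiff
open Filter Set Metric

noncomputable section

set_option linter.unusedVariables false
set_option linter.unusedSectionVars false
set_option maxSynthPendingDepth 3

namespace Vale.Agent.P272.K.LIN

variable {E : Type*} [NormedAddCommGroup E] [NormedSpace ℝ E]

/-- The weighted norm. -/
def Nl {Y : Type*} {w : Y → Y → ℝ≥0} {V : Type*} [NormedAddCommGroup V] (α l : ℝ)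
    (f : Hol w V) : ℝ := l ^ (α / 2) * f.N0 + f.N1

lemma Nl_nonneg {Y : Type*} {w : Y → Y → ℝ≥0} {V : Type*} [NormedAddCommGroup V] {α l : ℝ}
    (hl : 0 ≤ l) (f : Hol w V) : 0 ≤ Nl α l f :=
  add_nonneg (mul_nonneg (Real.rpow_nonneg hl _) f.N0_nonneg) f.N1_nonneg

lemma norm_le_Nl {Y : Type*} {w : Y → Y → ℝ≥0} {V : Type*} [NormedAddCommGroup V] {α l : ℝ}
    (hα : 0 < α) (hl : 1 ≤ l) (f : Hol w V) : f.N0 + f.N1 ≤ Nl α l f := by
  have h1 : 1 ≤ l ^ (α / 2) := Real.one_le_rpow hl (by positivity)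
  have := f.N0_nonneg
  unfold Nl
  nlinarith

lemma one_le_inf : (1 : WithTop ℕ∞) ≤ ∞ := by simp

/-- the coefficient of the commutator, first part -/
def com1 (β : E → ℝ) (y : E) : (ℝ × (E →L[ℝ] ℝ)) →L[ℝ] (E →L[ℝ] E →L[ℝ] ℝ) :=
  (ContinuousLinearMap.fst ℝ ℝ (E →L[ℝ] ℝ)).smulRight (fderiv ℝ (fderiv ℝ β) y) +
    (ContinuousLinearMap.smulRightL ℝ E (E →L[ℝ] ℝ) (fderiv ℝ β y)).comp
      (ContinuousLinearMap.snd ℝ ℝ (E →L[ℝ] ℝ)) +
    ((ContinuousLinearMap.smulRightL ℝ E (E →L[ℝ] ℝ)).flip (fderiv ℝ β y)).comp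
      (ContinuousLinearMap.snd ℝ ℝ (E →L[ℝ] ℝ))

/-- the coefficient of the commutator, second part -/
def com2 (β : E → ℝ) (y : E) : (ℝ × (E →L[ℝ] ℝ)) →L[ℝ] (E →L[ℝ] ℝ) :=
  (ContinuousLinearMap.fst ℝ ℝ (E →L[ℝ] ℝ)).smulRight (fderiv ℝ β y)

lemma com1_contDiff {β : E → ℝ} (hβ : ContDiff ℝ ∞ β) : ContDiff ℝ 1 (com1 β) := by
  have h1 : ContDiff ℝ 2 (fderiv ℝ β) := hβ.fderiv_right (m := 2) (WithTop.coe_le_coe.2 le_top)
  have h2 : ContDiff ℝ 1 (fderiv ℝ (fderiv ℝ β)) := h1.fderiv_right (by norm_num)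
  have h1' : ContDiff ℝ 1 (fderiv ℝ β) := h1.of_le (by norm_num)
  unfold com1
  refine ContDiff.add (ContDiff.add ?_ ?_) ?_
  · exact ((ContinuousLinearMap.smulRightL ℝ (ℝ × (E →L[ℝ] ℝ)) (E →L[ℝ] E →L[ℝ] ℝ)
      (ContinuousLinearMap.fst ℝ ℝ _)).contDiff).comp h2
  · exact ((ContinuousLinearMap.contDiff _).comp h1').clm_comp contDiff_const
  · exact ((ContinuousLinearMap.contDiff _).comp h1').clm_comp contDiff_const

lemma com2_contDiff {β : E → ℝ} (hβ : ContDiff ℝ ∞ β) : ContDiff ℝ 1 (com2 β) := by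
  have h1 : ContDiff ℝ 2 (fderiv ℝ β) := hβ.fderiv_right (m := 2) (WithTop.coe_le_coe.2 le_top)
  have h1' : ContDiff ℝ 1 (fderiv ℝ β) := h1.of_le (by norm_num)
  exact ((ContinuousLinearMap.smulRightL ℝ (ℝ × (E →L[ℝ] ℝ)) (E →L[ℝ] ℝ)
      (ContinuousLinearMap.fst ℝ ℝ _)).contDiff).comp h1'

lemma com1_eq_zero {β : E → ℝ} {y : E} (h : jet β y = 0) : com1 β y = 0 := by
  have h1 : fderiv ℝ β y = 0 := congrArg (fun p : Jet E => p.2.1) h
  have h2 : fderiv ℝ (fderiv ℝ β) y = 0 := congrArg (fun p : Jet E => p.2.2) h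
  unfold com1
  rw [h1, h2]
  ext p <;> simp

lemma com2_eq_zero {β : E → ℝ} {y : E} (h : jet β y = 0) : com2 β y = 0 := by
  have h1 : fderiv ℝ β y = 0 := congrArg (fun p : Jet E => p.2.1) h
  unfold com2
  rw [h1]
  ext p <;> simp

/-- The commutator formula. -/
lemma op_mul (A : (E →L[ℝ] E →L[ℝ] ℝ) →L[ℝ] ℝ) (B : (E →L[ℝ] ℝ) →L[ℝ] ℝ) {β v : E → ℝ} {y : E}
    (hβ : ContDiffAt ℝ 2 β y) (hv : ContDiffAt ℝ 2 v y) :
    A (fderiv ℝ (fderiv ℝ fun z => β z * v z) y) + B (fderiv ℝ (fun z => β z * v z) y) =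
      β y * (A (fderiv ℝ (fderiv ℝ v) y) + B (fderiv ℝ v y)) +
        (A (com1 β y (v y, fderiv ℝ v y)) + B (com2 β y (v y, fderiv ℝ v y))) := by
  have h := jet_mul hβ hv
  have h1 : fderiv ℝ (fun z => β z * v z) y = β y • fderiv ℝ v y + v y • fderiv ℝ β y :=
    congrArg (fun p : Jet E => p.2.1) h
  have h2 : fderiv ℝ (fderiv ℝ fun z => β z * v z) y =
      β y • fderiv ℝ (fderiv ℝ v) y + com1 β y (v y, fderiv ℝ v y) := by
    have h3 : fderiv ℝ (fderiv ℝ fun z => β z * v z) y = (JM (jet β y) (jet v y)).2.2 :=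
      congrArg (fun p : Jet E => p.2.2) h
    rw [h3]
    ext u t
    rw [JM_snd_snd]
    simp [com1, jet]
    ring
  have h3 : com2 β y (v y, fderiv ℝ v y) = v y • fderiv ℝ β y := rfl
  rw [h1, h2, h3, map_add, map_add, map_smul, map_smul, map_smul]
  simp only [smul_eq_mul]
  ring

/-- pairing two Hölder functions -/
lemma hb_prod {V W : Type*} [NormedAddCommGroup V] [NormedAddCommGroup W] {α A B : ℝ}
    {f : E → V} {g : E → W} (hf : HB α f A B) (hg : HB α g A B) :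
    HB α (fun y => (f y, g y)) A B := by
  refine ⟨fun x => ?_, fun x y => ?_⟩
  · rw [Prod.norm_def]; exact max_le (hf.sup x) (hg.sup x)
  · rw [Prod.norm_def]; exact max_le (hf.hol x y) (hg.hol x y)

lemma rpow_le_one' {l : ℝ} (hl : 1 ≤ l) {s : ℝ} (hs : s ≤ 0) : l ^ s ≤ 1 :=
  Real.rpow_le_one_of_one_le_of_nonpos hl hs

lemma ResBd.jet {α l C N : ℝ} (hα : 0 < α) (hl : 1 ≤ l) (hCN : 0 ≤ C * N) {v : E → ℝ}
    (h : ResBd α l C N v) : HB α (LIN.jet v) (C * N) (C * N) := by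
  have key : ∀ s : ℝ, s ≤ 0 → C * N * l ^ s ≤ C * N := fun s hs =>
    mul_le_of_le_one_right hCN (rpow_le_one' hl hs)
  refine hb_prod (h.zero.mono' (key _ ?_) (key _ ?_)) (hb_prod (h.one.mono' (key _ ?_) (key _ ?_))
    (h.two.mono' (key _ ?_) le_rfl)) <;> linarith

lemma ResBd.jet1 {α l C N : ℝ} (hα : 0 < α) (hl : 1 ≤ l) (hCN : 0 ≤ C * N) {v : E → ℝ}
    (h : ResBd α l C N v) : HB α (fun y => (v y, fderiv ℝ v y)) (C * N * l ^ (-((1 + α) / 2)))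
      (C * N * l ^ (-(1 / 2) : ℝ)) := by
  have key : ∀ s t : ℝ, s ≤ t → C * N * l ^ s ≤ C * N * l ^ t := fun s t hs =>
    mul_le_mul_of_nonneg_left (Real.rpow_le_rpow_of_exponent_le hl hs) hCN
  refine hb_prod (h.zero.mono' (key _ _ ?_) (key _ _ ?_)) h.one <;> linarith

lemma hb_of_K {V : Type*} [NormedAddCommGroup V] [NormedSpace ℝ V] {α : ℝ} (h0 : 0 < α)
    (h1 : α ≤ 1) {c : E → V} (hc : ContDiff ℝ 1 c) {K : Set E} (hK : IsCompact K)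
    (hc0 : ∀ y, y ∉ K → c y = 0) : ∃ A B, 0 ≤ A ∧ 0 ≤ B ∧ HB α c A B :=
  hb_of_compact h0 h1 hc (HasCompactSupport.intro hK hc0)

/-- A Hölder function on a bounded set is bounded. -/
lemma bdd_of_hol {V : Type*} [NormedAddCommGroup V] {α : ℝ} (h0 : 0 < α) {a : E → V} {K U : Set E}
    (hK : IsCompact K) (hKU : K ⊆ U)
    (h : ∃ A, ∀ y ∈ U, ∀ y' ∈ U, ‖a y - a y'‖ ≤ A * ‖y - y'‖ ^ α) : ∃ A, ∀ y ∈ K, ‖a y‖ ≤ A := by
  obtain ⟨A, hA⟩ := h
  rcases K.eq_empty_or_nonempty with hKe | ⟨z, hz⟩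
  · exact ⟨0, fun y hy => by rw [hKe] at hy; exact hy.elim⟩
  obtain ⟨D, hD⟩ := hK.isBounded.exists_norm_le
  refine ⟨‖a z‖ + |A| * (D + D) ^ α, fun y hy => ?_⟩
  have h1 : ‖y - z‖ ≤ D + D := (norm_sub_le _ _).trans (add_le_add (hD y hy) (hD z hz))
  calc ‖a y‖ = ‖a z + (a y - a z)‖ := by congr 1; abel
    _ ≤ ‖a z‖ + ‖a y - a z‖ := norm_add_le _ _
    _ ≤ ‖a z‖ + |A| * (D + D) ^ α := by
        gcongr
        refine (hA y (hKU hy) z (hKU hz)).trans ?_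
        have : 0 ≤ ‖y - z‖ ^ α := Real.rpow_nonneg (norm_nonneg _) _
        calc A * ‖y - z‖ ^ α ≤ |A| * ‖y - z‖ ^ α :=
              mul_le_mul_of_nonneg_right (le_abs_self _) this
          _ ≤ |A| * (D + D) ^ α := by gcongr

lemma hb_mul {α : ℝ} {β v : E → ℝ} {A B M : ℝ} (hβ : HB α β A B) (hA : 0 ≤ A)
    (hB : 0 ≤ B) (hv : HB α v M M) : HB α (fun y => β y * v y) (A * M) (A * M + B * M) := by
  have hM := hv.sup_nonneg
  refine ⟨fun y => ?_, fun y y' => ?_⟩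
  · rw [norm_mul]
    exact mul_le_mul (hβ.sup y) (hv.sup y) (norm_nonneg _) hA
  · have hr : 0 ≤ ‖y - y'‖ ^ α := Real.rpow_nonneg (norm_nonneg _) _
    have h1 : β y * v y - β y' * v y' = β y * (v y - v y') + (β y - β y') * v y' := by ring
    rw [h1, add_mul]
    refine (norm_add_le _ _).trans (add_le_add ?_ ?_)
    · rw [norm_mul, mul_assoc]
      exact mul_le_mul (hβ.sup y) (hv.hol y y') (norm_nonneg _) hA
    · rw [norm_mul]
      calc ‖β y - β y'‖ * ‖v y'‖ ≤ (B * ‖y - y'‖ ^ α) * M :=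
            mul_le_mul (hβ.hol y y') (hv.sup y') (norm_nonneg _) (mul_nonneg hB hr)
        _ = _ := by ring

namespace Cov

variable {X : Type*} [TopologicalSpace X] [ChartedSpace E X] [FiniteDimensional ℝ E]
  (𝒞 : Cov E X)

/-- `L u` vanishes where `u` vanishes identically nearby. -/
lemma L_eq_zero {α : ℝ} {L : 𝒞.C2 α →L[ℝ] Hol (𝒞.w α) ℝ}
    {a : Fin 𝒞.N → E → (E →L[ℝ] E →L[ℝ] ℝ) →L[ℝ] ℝ} {b : Fin 𝒞.N → E → (E →L[ℝ] ℝ) →L[ℝ] ℝ}
    (hL : 𝒞.Ell α L a b) {u : 𝒞.C2 α} {x : X} (h : ∀ᶠ z in 𝓝 x, 𝒞.fn u z = 0) : L u x = 0 := by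
  obtain ⟨i, hx, hxb⟩ := 𝒞.cover x
  rw [hL.eq u i x hx (𝒞.ball_sub hxb)]
  have h2 : Tendsto (𝒞.e i).symm (𝓝 (𝒞.e i x)) (𝓝 x) := by
    have := (𝒞.e i).symm.continuousAt (x := 𝒞.e i x) ((𝒞.e i).map_source hx)
    unfold ContinuousAt at this
    rwa [(𝒞.e i).left_inv hx] at this
  have h3 : (fun y => 𝒞.fn u ((𝒞.e i).symm y)) =ᶠ[𝓝 (𝒞.e i x)] fun _ => 0 := h2.eventually h
  have h4 := jet_congr h3
  have h5 : jet (fun _ : E => (0 : ℝ)) (𝒞.e i x) = 0 := by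
    unfold jet
    simp
  rw [h5] at h4
  have h6 : fderiv ℝ (fun y => 𝒞.fn u ((𝒞.e i).symm y)) (𝒞.e i x) = 0 :=
    congrArg (fun p : Jet E => p.2.1) h4
  have h7 : fderiv ℝ (fderiv ℝ fun y => 𝒞.fn u ((𝒞.e i).symm y)) (𝒞.e i x) = 0 :=
    congrArg (fun p : Jet E => p.2.2) h4
  rw [h6, h7, map_zero, map_zero, add_zero]

set_option maxHeartbeats 2000000 in
/-- The local approximate solution. -/
theorem local_patch [T2Space X] [CompactSpace X] [RSm E X] {α : ℝ} (hα : 0 < α) (hα1 : α < 1)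
    {L : 𝒞.C2 α →L[ℝ] Hol (𝒞.w α) ℝ}
    {a : Fin 𝒞.N → E → (E →L[ℝ] E →L[ℝ] ℝ) →L[ℝ] ℝ} {b : Fin 𝒞.N → E → (E →L[ℝ] ℝ) →L[ℝ] ℝ}
    (hL : 𝒞.Ell α L a b) (x₀ : X) :
    ∃ i, ∃ r > 0, x₀ ∈ (𝒞.e i).source ∧ closedBall (𝒞.e i x₀) (3 * r) ⊆ (𝒞.e i).target ∧
      ∀ ψ : E → ℝ, ContDiff ℝ ∞ ψ → (∀ y, y ∉ closedBall (𝒞.e i x₀) (2 * r) → ψ y = 0) →
      ∃ C₀ : ℝ, 0 ≤ C₀ ∧ ∃ l₀ : ℝ, 1 ≤ l₀ ∧ ∀ l : ℝ, l₀ ≤ l → ∀ g : Hol (𝒞.w α) ℝ,
        ∃ (u : 𝒞.C2 α) (R : Hol (𝒞.w α) ℝ),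
          (∀ x, R x = ext0 (𝒞.e i) ψ x * g x - (l * 𝒞.fn u x - L u x)) ∧
          ‖u‖ ≤ C₀ * Nl α l g ∧ Nl α l R ≤ C₀ * l ^ (-(1 / 2) : ℝ) * Nl α l g := by
  obtain ⟨i, hx, hxb⟩ := 𝒞.cover x₀
  have hri := 𝒞.r_pos i
  obtain ⟨r₀, hr₀, hsub, C, hC, l₀, hl₀, hres⟩ := V.local_resolvent' hα hα1
    (U := ball (𝒞.c i) (2 * 𝒞.r i)) isOpen_ball (x₀ := 𝒞.e i x₀) (𝒞.ball_sub hxb) (a i) (b i)
    (hL.hola i) (hL.holb i) (hL.pos i _ (𝒞.ball_sub hxb))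
  have hUt : ball (𝒞.c i) (2 * 𝒞.r i) ⊆ (𝒞.e i).target := 𝒞.sub' (by linarith)
  refine ⟨i, r₀ / 3, by positivity, hx, ?_, ?_⟩
  · rw [mul_div_cancel₀ _ (by norm_num : (3 : ℝ) ≠ 0)]
    exact hsub.trans hUt
  intro ψ hψ hψ0
  set e := 𝒞.e i with he_def
  have he : e ∈ atlas E X := 𝒞.mem i
  set K : Set E := closedBall (e x₀) r₀ with hK_def
  have hK : IsCompact K := isCompact_closedBall _ _
  have hKt : K ⊆ e.target := hsub.trans hUt
  have hψK : ∀ y, y ∉ K → ψ y = 0 := fun y hy => hψ0 y fun h => hy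
    (closedBall_subset_closedBall (by linarith) h)
  -- the cutoff function
  let β : ContDiffBump (e x₀) := ⟨2 * (r₀ / 3), r₀, by positivity, by linarith⟩
  have hβs : ContDiff ℝ ∞ (β : E → ℝ) := β.contDiff
  have hβK : ∀ y, y ∉ K → (β : E → ℝ) y = 0 := fun y hy => by
    apply β.zero_of_le_dist
    simp only [hK_def, mem_closedBall, not_le] at hy
    exact hy.le
  have hβψ : ∀ y, (β : E → ℝ) y * ψ y = ψ y := fun y => by
    by_cases hy : y ∈ closedBall (e x₀) (2 * (r₀ / 3))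
    · rw [β.one_of_mem_closedBall hy, one_mul]
    · rw [hψ0 y hy, mul_zero]
  -- transfer of the right hand side
  obtain ⟨A₁, B₁, -, -, hψHB⟩ := hb_of_K (α := α) hα hα1.le
    (c := fun y => ψ y • ContinuousLinearMap.id ℝ ℝ)
    ((hψ.of_le one_le_inf).smul contDiff_const) hK (fun y hy => by rw [hψK y hy, zero_smul])
  obtain ⟨C₁, hC₁, hT1⟩ := 𝒞.transfer1 (V := ℝ) (W := ℝ) hα hα1.le he hK hKt
    (fun y hy => by rw [hψK y hy, zero_smul]) hψHB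
  -- transfer of the solution
  obtain ⟨C₂, hC₂, hT2⟩ := 𝒞.transfer2 (V := ℝ) hα hα1.le he hK hKt
  obtain ⟨C₃, hC₃, hT3⟩ := 𝒞.transfer2 (V := Jet E) hα hα1.le he hK hKt
  obtain ⟨A₂, B₂, hA₂, hB₂, hβHB⟩ := hb_of_K (α := α) hα hα1.le (hβs.of_le one_le_inf) hK hβK
  have hcoef : ∀ i', ∃ A B, 0 ≤ A ∧ 0 ≤ B ∧ HB α (𝒞.coef e β i') A B := fun i' =>
    hb_of_K hα hα1.le ((𝒞.coef_contDiff he hβs hK hKt hβK i').of_le one_le_inf) hK
      (fun y hy => 𝒞.coef_eq_zero hK.isClosed hβK i' hy)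
  choose Ac Bc hAc hBc hcHB using hcoef
  -- the commutator
  have hjet0 : ∀ y, y ∉ K → jet (β : E → ℝ) y = 0 := fun y hy =>
    jet_eq_zero hK.isClosed hβK hy
  obtain ⟨A₄, B₄, -, -, hγ1⟩ := hb_of_K (α := α) hα hα1.le (com1_contDiff hβs) hK
    (fun y hy => com1_eq_zero (hjet0 y hy))
  obtain ⟨A₅, B₅, -, -, hγ2⟩ := hb_of_K (α := α) hα hα1.le (com2_contDiff hβs) hK
    (fun y hy => com2_eq_zero (hjet0 y hy))
  obtain ⟨A₆, B₆, hA₆, hB₆, hγ1'⟩ := hb_cut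
    (ContinuousLinearMap.compL ℝ (ℝ × (E →L[ℝ] ℝ)) (E →L[ℝ] E →L[ℝ] ℝ) ℝ) (a := a i) hγ1
    (fun y hy => com1_eq_zero (hjet0 y hy)) (bdd_of_hol hα hK hsub (hL.hola i))
    (by obtain ⟨A, hA⟩ := hL.hola i; exact ⟨A, fun y hy y' hy' => hA y (hsub hy) y' (hsub hy')⟩)
  obtain ⟨A₇, B₇, hA₇, hB₇, hγ2'⟩ := hb_cut
    (ContinuousLinearMap.compL ℝ (ℝ × (E →L[ℝ] ℝ)) (E →L[ℝ] ℝ) ℝ) (a := b i) hγ2
    (fun y hy => com2_eq_zero (hjet0 y hy)) (bdd_of_hol hα hK hsub (hL.holb i))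
    (by obtain ⟨A, hA⟩ := hL.holb i; exact ⟨A, fun y hy y' hy' => hA y (hsub hy) y' (hsub hy')⟩)
  set γ : E → (ℝ × (E →L[ℝ] ℝ)) →L[ℝ] ℝ := fun y =>
    (a i y).comp (com1 β y) + (b i y).comp (com2 β y) with hγ_def
  have hγHB : HB α γ (A₆ + A₇) (B₆ + B₇) := by
    refine ⟨fun y => (norm_add_le _ _).trans (add_le_add (hγ1'.sup y) (hγ2'.sup y)),
      fun y y' => ?_⟩
    have h1 : γ y - γ y' = ((a i y).comp (com1 β y) - (a i y').comp (com1 β y')) +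
        ((b i y).comp (com2 β y) - (b i y').comp (com2 β y')) := add_sub_add_comm _ _ _ _
    rw [h1, add_mul]
    exact (norm_add_le _ _).trans (add_le_add (hγ1'.hol y y') (hγ2'.hol y y'))
  have hγ0 : ∀ y, y ∉ K → γ y = 0 := fun y hy => by
    rw [hγ_def]
    simp only [com1_eq_zero (hjet0 y hy), com2_eq_zero (hjet0 y hy),
      ContinuousLinearMap.comp_zero, add_zero]
  obtain ⟨Cc, hCc, hCc'⟩ := exists_le_all fun i' => Ac i' + C₃ * (Ac i' + (Ac i' + Bc i'))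
  set Aγ : ℝ := A₆ + A₇ with hAγ
  set Bγ : ℝ := B₆ + B₇ with hBγ
  have hAγ0 : 0 ≤ Aγ := by positivity
  have hBγ0 : 0 ≤ Bγ := by positivity
  set D₁ : ℝ := A₂ + C₂ * (A₂ + (A₂ + B₂)) + Cc with hD₁
  set D₂ : ℝ := Aγ + C₂ * (Aγ + (Aγ + Bγ)) with hD₂
  have hD₁0 : 0 ≤ D₁ := by positivity
  have hD₂0 : 0 ≤ D₂ := by positivity
  refine ⟨(D₁ + D₂) * (C * (2 * C₁)), by positivity, l₀, hl₀, fun l hl g => ?_⟩
  have hl1 : 1 ≤ l := hl₀.trans hl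
  have hl0 : 0 < l := by linarith
  have hg0 := g.N0_nonneg
  have hg1 := g.N1_nonneg
  obtain ⟨v, hv, heq, hbd⟩ := hres l hl _ (C₁ * g.N0) (C₁ * (g.N0 + g.N1)) (by positivity) (hT1 g)
  set N : ℝ := l ^ (α / 2) * (C₁ * g.N0) + C₁ * (g.N0 + g.N1) with hN_def
  have hlp : 0 ≤ l ^ (α / 2) := Real.rpow_nonneg hl0.le _
  have hN0 : 0 ≤ N := by positivity
  have hNle : N ≤ 2 * C₁ * Nl α l g := by
    have h1 := norm_le_Nl hα hl1 g
    have h2 : l ^ (α / 2) * g.N0 ≤ Nl α l g := by unfold Nl; linarith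
    have h3 : N = C₁ * (l ^ (α / 2) * g.N0) + C₁ * (g.N0 + g.N1) := by rw [hN_def]; ring
    rw [h3]
    nlinarith
  have hNlg : 0 ≤ Nl α l g := Nl_nonneg hl0.le g
  set M : ℝ := C * N with hM_def
  have hM0 : 0 ≤ M := by positivity
  have hMle : M ≤ C * (2 * C₁) * Nl α l g := by
    rw [hM_def, mul_assoc]; exact mul_le_mul_of_nonneg_left hNle hC
  have hj : HB α (jet v) M M := hbd.jet hα hl1 hM0
  have hj1 : HB α (fun y => (v y, fderiv ℝ v y)) (M * l ^ (-((1 + α) / 2)))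
      (M * l ^ (-(1 / 2) : ℝ)) := hbd.jet1 hα hl1 hM0
  have hv1 : HB α v M M := ⟨fun y => (norm_fst_le (jet v y)).trans (hj.sup y), fun y y' =>
    (norm_fst_le (jet v y - jet v y')).trans (hj.hol y y')⟩
  -- the function `u`
  have hz : ∀ y, y ∉ K → (β : E → ℝ) y * v y = 0 := fun y hy => by rw [hβK y hy, zero_mul]
  have hck : CkFn E 2 (ext0 e fun y => (β : E → ℝ) y * v y) :=
    ext0_ck two_le_inf he hK hKt hz fun y _ => (hβs.contDiffAt.of_le two_le_inf).mul hv.contDiffAt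
  have hJeq : ∀ i' x, 𝒞.Jf i' (ext0 e fun y => (β : E → ℝ) y * v y) x =
      ext0 e (fun y => 𝒞.coef e β i' y (jet v y)) x := fun i' x =>
    𝒞.Jf_ext0 he hβs hK hKt hβK hv i' x
  have hJb : ∀ i', (∀ x, ‖ext0 e (fun y => 𝒞.coef e β i' y (jet v y)) x‖ ≤ Ac i' * M) ∧
      ∀ x x', ‖ext0 e (fun y => 𝒞.coef e β i' y (jet v y)) x -
        ext0 e (fun y => 𝒞.coef e β i' y (jet v y)) x'‖ ≤
        C₃ * (Ac i' * M + (Ac i' * M + Bc i' * M)) * 𝒞.w α x x' := fun i' => by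
    have h1 := hAc i'
    have h2 := hBc i'
    exact hT3 _ _ _ (by positivity) (by positivity)
      (fun y hy => by rw [𝒞.coef_eq_zero hK.isClosed hβK i' hy, _root_.zero_apply])
      (hb_apply h1 h2 (hcHB i') hj)
  have hIb := hT2 (fun y => (β : E → ℝ) y * v y) (A₂ * M) (A₂ * M + B₂ * M) (by positivity)
    (by positivity) hz (hb_mul hβHB hA₂ hB₂ hv1)
  let u : 𝒞.C2 α := 𝒞.mkC2 hα hα1.le (ext0 e fun y => (β : E → ℝ) y * v y) hck fun i' =>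
    ⟨_, fun x y => by rw [hJeq, hJeq]; exact (hJb i').2 x y⟩
  have hufn : ∀ x, 𝒞.fn u x = ext0 e (fun y => (β : E → ℝ) y * v y) x := fun x => rfl
  -- the remainder
  set P : ℝ := M * l ^ (-((1 + α) / 2)) with hP
  set Q : ℝ := M * l ^ (-(1 / 2) : ℝ) with hQ
  have hlp1 : 0 ≤ l ^ (-((1 + α) / 2)) := Real.rpow_nonneg hl0.le _
  have hlp2 : 0 ≤ l ^ (-(1 / 2) : ℝ) := Real.rpow_nonneg hl0.le _
  have hP0 : 0 ≤ P := by positivity
  have hQ0 : 0 ≤ Q := by positivity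
  have hPQ : P ≤ Q := mul_le_mul_of_nonneg_left
    (Real.rpow_le_rpow_of_exponent_le hl1 (by linarith)) hM0
  have hPQ' : l ^ (α / 2) * P = Q := by
    rw [hP, hQ, mul_left_comm, ← Real.rpow_add hl0]
    congr 2; ring
  have hRz : ∀ y, y ∉ K → γ y (v y, fderiv ℝ v y) = 0 := fun y hy => by
    rw [hγ0 y hy, _root_.zero_apply]
  have hRb := hT2 (fun y => γ y (v y, fderiv ℝ v y)) (Aγ * P) (Aγ * Q + Bγ * P) (by positivity)
    (by positivity) hRz (hb_apply hAγ0 hBγ0 hγHB hj1)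
  let R : Hol (𝒞.w α) ℝ := ⟨ext0 e (fun y => γ y (v y, fderiv ℝ v y)), ⟨_, hRb.1⟩, ⟨_, hRb.2⟩⟩
  have hRx : ∀ x, R x = ext0 e (fun y => γ y (v y, fderiv ℝ v y)) x := fun x => rfl
  refine ⟨u, R, fun x => ?_, ?_, ?_⟩
  · rw [hRx, hufn]
    by_cases hxK : x ∈ e.symm '' K
    · obtain ⟨y, hyK, rfl⟩ := hxK
      have hyt := hKt hyK
      have hxs := e.map_target hyt
      rw [hL.eq u i (e.symm y) hxs (by rw [← he_def, e.right_inv hyt]; exact hsub hyK),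
        ext0_of_mem hxs, ext0_of_mem hxs, ext0_of_mem hxs, ← he_def]
      simp only [e.right_inv hyt]
      have h1 : (fun z => 𝒞.fn u (e.symm z)) =ᶠ[𝓝 y] fun z => (β : E → ℝ) z * v z := by
        filter_upwards [e.open_target.mem_nhds hyt] with z hz
        rw [hufn, ext0_of_mem (e.map_target hz), e.right_inv hz]
      rw [h1.fderiv.fderiv_eq, h1.fderiv_eq,
        op_mul (a i y) (b i y) (hβs.contDiffAt.of_le two_le_inf) hv.contDiffAt]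
      have h2 := heq y hyK
      have h3 : (ψ y • ContinuousLinearMap.id ℝ ℝ) (g (e.symm y)) = ψ y * g (e.symm y) := rfl
      rw [h3] at h2
      have h4 : γ y (v y, fderiv ℝ v y) = a i y (com1 β y (v y, fderiv ℝ v y)) +
          b i y (com2 β y (v y, fderiv ℝ v y)) := rfl
      rw [h4]
      have h5 : a i y (fderiv ℝ (fderiv ℝ v) y) + b i y (fderiv ℝ v y) =
          l * v y - ψ y * g (e.symm y) := by linarith
      rw [h5]
      have h6 := hβψ y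
      linear_combination (g (e.symm y)) * h6
    · have hcl : IsClosed (e.symm '' K) :=
        (hK.image_of_continuousOn (e.continuousOn_symm.mono hKt)).isClosed
      have hzero : ∀ (h : E → ℝ), (∀ y, y ∉ K → h y = 0) → ∀ z, z ∉ e.symm '' K →
          ext0 e h z = 0 := by
        intro h hh z hz
        by_cases hzs : z ∈ e.source
        · rw [ext0_of_mem hzs]
          exact hh _ fun hK' => hz ⟨e z, hK', e.left_inv hzs⟩
        · exact ext0_of_notMem hzs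
      have hLu : L u x = 0 := 𝒞.L_eq_zero hL (by
        filter_upwards [hcl.isOpen_compl.mem_nhds hxK] with z hz'
        rw [hufn]; exact hzero _ hz z hz')
      rw [hzero _ hRz x hxK, hzero _ hψK x hxK, hzero _ hz x hxK, hLu]
      ring
  · refine (𝒞.norm_C2_le (B := D₁ * M) (by positivity) ?_ fun i' => ?_).trans ?_
    · have h1 : ‖𝒞.incl α u‖ ≤ A₂ * M + C₂ * (A₂ * M + (A₂ * M + B₂ * M)) :=
        Hol.norm_le_of (by positivity) (by positivity) hIb.1 hIb.2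
      refine h1.trans ?_
      have : 0 ≤ Cc * M := by positivity
      rw [hD₁]
      nlinarith
    · have h1 := hAc i'
      have h2 := hBc i'
      have h3 : ‖𝒞.J α i' u‖ ≤ Ac i' * M + C₃ * (Ac i' * M + (Ac i' * M + Bc i' * M)) := by
        refine Hol.norm_le_of (by positivity) (by positivity) (fun x => ?_) fun x y => ?_
        · rw [J_apply]
          show ‖𝒞.Jf i' (ext0 e fun y => (β : E → ℝ) y * v y) x‖ ≤ _
          rw [hJeq]; exact (hJb i').1 x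
        · rw [J_apply, J_apply]
          show ‖𝒞.Jf i' (ext0 e fun y => (β : E → ℝ) y * v y) x -
            𝒞.Jf i' (ext0 e fun y => (β : E → ℝ) y * v y) y‖ ≤ _
          rw [hJeq, hJeq]; exact (hJb i').2 x y
      have h4 : Ac i' * M + C₃ * (Ac i' * M + (Ac i' * M + Bc i' * M)) =
          (Ac i' + C₃ * (Ac i' + (Ac i' + Bc i'))) * M := by ring
      rw [h4] at h3
      refine h3.trans (mul_le_mul_of_nonneg_right ((hCc' i').trans ?_) hM0)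
      have : 0 ≤ C₂ * (A₂ + (A₂ + B₂)) := by positivity
      rw [hD₁]
      linarith
    · calc D₁ * M ≤ D₁ * (C * (2 * C₁) * Nl α l g) := mul_le_mul_of_nonneg_left hMle hD₁0
        _ = D₁ * (C * (2 * C₁)) * Nl α l g := by ring
        _ ≤ (D₁ + D₂) * (C * (2 * C₁)) * Nl α l g := by
            gcongr
            linarith
  · have h0 : R.N0 ≤ Aγ * P := Hol.N0_le (by positivity) hRb.1
    have h1 : R.N1 ≤ C₂ * (Aγ * P + (Aγ * Q + Bγ * P)) := Hol.N1_le (by positivity) hRb.2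
    calc Nl α l R = l ^ (α / 2) * R.N0 + R.N1 := rfl
      _ ≤ l ^ (α / 2) * (Aγ * P) + C₂ * (Aγ * P + (Aγ * Q + Bγ * P)) := by gcongr
      _ = Aγ * Q + C₂ * (Aγ * P + (Aγ * Q + Bγ * P)) := by
          rw [← hPQ']; ring
      _ ≤ Aγ * Q + C₂ * (Aγ * Q + (Aγ * Q + Bγ * Q)) := by gcongr
      _ = D₂ * Q := by rw [hD₂]; ring
      _ = D₂ * l ^ (-(1 / 2) : ℝ) * M := by rw [hQ]; ring
      _ ≤ D₂ * l ^ (-(1 / 2) : ℝ) * (C * (2 * C₁) * Nl α l g) := by gcongr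
      _ = D₂ * (C * (2 * C₁)) * l ^ (-(1 / 2) : ℝ) * Nl α l g := by ring
      _ ≤ (D₁ + D₂) * (C * (2 * C₁)) * l ^ (-(1 / 2) : ℝ) * Nl α l g := by
          gcongr
          linarith

end Cov

end Vale.Agent.P272.K.LIN
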