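import Vale.Agent.P272.K.LIN.Cov
import Vale.Agent.P272.K.LIN.JetCalc
import Mathlib.Analysis.Calculus.UniformLimitsDeriv
import Mathlib.Topology.MetricSpace.Thickening

/-!
# Change of charts for jets; transfer of Hölder functions between `X` and charts
-/

open scoped NNReal Topology ContDiff
open Filter Set Metric

noncomputable section

set_option linter.unusedVariables false
set_option linter.unusedSectionVars false
set_option maxSynthPendingDepth 3

namespace Vale.Agent.P272.K.LIN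

variable {E : Type*} [NormedAddCommGroup E] [NormedSpace ℝ E] {X : Type*} [TopologicalSpace X]
  [ChartedSpace E X] {V W : Type*} [NormedAddCommGroup V] [NormedSpace ℝ V]
  [NormedAddCommGroup W] [NormedSpace ℝ W]

/-! ### Change of charts for jets -/

lemma two_le_inf : (2 : WithTop ℕ∞) ≤ ∞ := WithTop.coe_le_coe.2 le_top

/-- The linear map from jets in the chart `e` to jets in the chart `e'`, at the point `y` of the
chart `e'`. -/
def TJ (e e' : OpenPartialHomeomorph X E) (y : E) : Jet E →L[ℝ] Jet E :=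
  JT (fderiv ℝ (fun z => e (e'.symm z)) y) (fderiv ℝ (fderiv ℝ fun z => e (e'.symm z)) y)

lemma jet_change [RSm E X] {v : X → ℝ} (hv : CkFn E 2 v) {e e' : OpenPartialHomeomorph X E}
    (he : e ∈ atlas E X) (he' : e' ∈ atlas E X) {x : X} (hx : x ∈ e.source)
    (hx' : x ∈ e'.source) :
    jet (fun y => v (e'.symm y)) (e' x) = TJ e e' (e' x) (jet (fun y => v (e.symm y)) (e x)) := by
  have h1 : (fun y => v (e'.symm y)) =ᶠ[𝓝 (e' x)] fun y => v (e.symm (e (e'.symm y))) := by
    filter_upwards [symm_trans_eq hx hx'] with y hy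
    rw [e.left_inv hy.1]
  rw [jet_congr h1]
  have h2 : e (e'.symm (e' x)) = e x := by rw [e'.left_inv hx']
  have h3 := jet_comp (g := fun y => v (e.symm y)) (φ := fun y => e (e'.symm y)) (y := e' x)
    (by show ContDiffAt ℝ 2 (fun y => v (e.symm y)) (e (e'.symm (e' x)))
        rw [h2]; exact hv e he x hx)
    ((RSm.trans e' he' e he x hx' hx).of_le two_le_inf)
  rw [h3]
  unfold TJ
  simp only [h2]

lemma contDiffAt_TJ [RSm E X] {e e' : OpenPartialHomeomorph X E}
    (he : e ∈ atlas E X) (he' : e' ∈ atlas E X) {x : X} (hx : x ∈ e.source)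
    (hx' : x ∈ e'.source) : ContDiffAt ℝ ∞ (TJ e e') (e' x) := by
  have h := RSm.trans e' he' e he x hx' hx
  have h1 : ContDiffAt ℝ ∞ (fderiv ℝ fun z => e (e'.symm z)) (e' x) :=
    h.fderiv_right (m := ∞) (by simp)
  have h2 : ContDiffAt ℝ ∞ (fderiv ℝ (fderiv ℝ fun z => e (e'.symm z))) (e' x) :=
    h1.fderiv_right (m := ∞) (by simp)
  have h3 : ContDiffAt ℝ ∞ (fun q : (E →L[ℝ] E) × (E →L[ℝ] E →L[ℝ] E) => JT q.1 q.2)
      (fderiv ℝ (fun z => e (e'.symm z)) (e' x),
        fderiv ℝ (fderiv ℝ fun z => e (e'.symm z)) (e' x)) :=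
    (contDiff_JT (E := E) (F := E)).contDiffAt
  show ContDiffAt ℝ ∞ ((fun q : (E →L[ℝ] E) × (E →L[ℝ] E →L[ℝ] E) => JT q.1 q.2) ∘
    fun y => (fderiv ℝ (fun z => e (e'.symm z)) y,
      fderiv ℝ (fderiv ℝ fun z => e (e'.symm z)) y)) (e' x)
  exact ContDiffAt.comp (e' x) h3 (h1.prodMk h2)

/-! ### Hölder bounds for compactly supported functions -/

/-- Lipschitz and bounded implies Hölder. -/
lemma hol_of_lip {α : ℝ} (h0 : 0 < α) (h1 : α ≤ 1) {L M r t : ℝ} (hL : 0 ≤ L) (hM : 0 ≤ M)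
    (hr : 0 ≤ r) (ht1 : t ≤ L * r) (ht2 : t ≤ M) : t ≤ (L + M) * r ^ α := by
  rcases le_or_gt r 1 with h | h
  · calc t ≤ L * r := ht1
      _ ≤ L * r ^ α := by
          refine mul_le_mul_of_nonneg_left ?_ hL
          have := Real.rpow_le_rpow_of_exponent_ge' hr h h0.le h1
          rwa [Real.rpow_one] at this
      _ ≤ (L + M) * r ^ α := by
          have : 0 ≤ M * r ^ α := mul_nonneg hM (Real.rpow_nonneg hr _)
          nlinarith
  · calc t ≤ M := ht2
      _ ≤ M * r ^ α := le_mul_of_one_le_right hM (Real.one_le_rpow h.le h0.le)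
      _ ≤ (L + M) * r ^ α := by
          have : 0 ≤ L * r ^ α := mul_nonneg hL (Real.rpow_nonneg hr _)
          nlinarith

/-- A `C^1` function with compact support is Hölder. -/
lemma hb_of_compact {α : ℝ} (h0 : 0 < α) (h1 : α ≤ 1) {c : E → V} (hc : ContDiff ℝ 1 c)
    (hs : HasCompactSupport c) : ∃ A B, 0 ≤ A ∧ 0 ≤ B ∧ HB α c A B := by
  obtain ⟨L, hL⟩ := hc.lipschitzWith_of_hasCompactSupport hs (by simp)
  obtain ⟨M, hM⟩ := hs.exists_bound_of_continuous hc.continuous
  refine ⟨|M|, L + (|M| + |M|), abs_nonneg _, by positivity, fun x => (hM x).trans (le_abs_self _),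
    fun x y => ?_⟩
  refine hol_of_lip h0 h1 L.2 (by positivity) (norm_nonneg _) ?_ ?_
  · have := hL.dist_le_mul x y
    rwa [dist_eq_norm, dist_eq_norm] at this
  · exact (norm_sub_le _ _).trans (add_le_add ((hM x).trans (le_abs_self _))
      ((hM y).trans (le_abs_self _)))

namespace Cov

variable [FiniteDimensional ℝ E] (𝒞 : Cov E X)

/-- Points at Whitney distance zero coincide. -/
lemma eq_of_d_eq_zero {x y : X} (h : 𝒞.d x y = 0) : x = y := by
  obtain ⟨δ, hδ, h1⟩ := 𝒞.exists_near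
  obtain ⟨i, hx, hy, -, -, hi⟩ := h1 x y (by rw [h]; exact hδ)
  rw [h] at hi
  have h2 : 𝒞.e i x = 𝒞.e i y := sub_eq_zero.1 (norm_le_zero_iff.1 hi)
  rw [← (𝒞.e i).left_inv hx, h2, (𝒞.e i).left_inv hy]

/-! ### Transfer from `X` to a chart -/

/-- A Hölder function on `X`, cut off in a chart, is Hölder on `E`. -/
lemma transfer1 [T2Space X] [RSm E X] {α : ℝ} (h0 : 0 < α) (h1 : α ≤ 1)
    {e : OpenPartialHomeomorph X E} (he : e ∈ atlas E X) {κ : E → V →L[ℝ] W} {K : Set E}
    (hK : IsCompact K) (hKt : K ⊆ e.target) (hκ : ∀ y, y ∉ K → κ y = 0)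
    {A B : ℝ} (hHB : HB α κ A B) :
    ∃ C, 0 ≤ C ∧ ∀ f : Hol (𝒞.w α) V,
      HB α (fun y => κ y (f (e.symm y))) (C * f.N0) (C * (f.N0 + f.N1)) := by
  obtain ⟨D, hD0, hD⟩ := 𝒞.symm_lip he hK hKt
  refine ⟨|A| + |B| + |A| * D ^ α, by positivity, fun f => ⟨fun y => ?_, fun y y' => ?_⟩⟩
  · calc ‖κ y (f (e.symm y))‖ ≤ ‖κ y‖ * ‖f (e.symm y)‖ := ContinuousLinearMap.le_opNorm _ _
      _ ≤ |A| * f.N0 := mul_le_mul ((hHB.sup y).trans (le_abs_self _)) (f.le_N0 _)
          (norm_nonneg _) (abs_nonneg _)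
      _ ≤ (|A| + |B| + |A| * D ^ α) * f.N0 := by
          refine mul_le_mul_of_nonneg_right ?_ f.N0_nonneg
          have : 0 ≤ |A| * D ^ α := by positivity
          linarith [abs_nonneg B]
  · have hn0 := f.N0_nonneg
    have hn1 := f.N1_nonneg
    have hr : 0 ≤ ‖y - y'‖ ^ α := Real.rpow_nonneg (norm_nonneg _) _
    have hB' : ∀ z z', ‖κ z - κ z'‖ ≤ |B| * ‖z - z'‖ ^ α := fun z z' =>
      (hHB.hol z z').trans (mul_le_mul_of_nonneg_right (le_abs_self _)
        (Real.rpow_nonneg (norm_nonneg _) _))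
    -- the part where `κ` varies
    have key1 : ∀ z z' : E, ∀ x : X, ‖κ z (f x) - κ z' (f x)‖ ≤ |B| * ‖z - z'‖ ^ α * f.N0 := by
      intro z z' x
      rw [← _root_.sub_apply]
      exact ((κ z - κ z').le_opNorm _).trans (mul_le_mul (hB' z z') (f.le_N0 x) (norm_nonneg _)
        (by positivity))
    by_cases hy : y ∈ K
    · by_cases hy' : y' ∈ K
      · have h2 : κ y (f (e.symm y)) - κ y' (f (e.symm y')) =
            κ y (f (e.symm y) - f (e.symm y')) +
              (κ y (f (e.symm y')) - κ y' (f (e.symm y'))) := by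
          rw [map_sub]; abel
        rw [h2]
        have h3 : ‖κ y (f (e.symm y) - f (e.symm y'))‖ ≤ |A| * (f.N1 * (D ^ α * ‖y - y'‖ ^ α)) := by
          refine ((κ y).le_opNorm _).trans (mul_le_mul ((hHB.sup y).trans (le_abs_self _)) ?_
            (norm_nonneg _) (abs_nonneg _))
          refine (f.le_N1 _ _).trans (mul_le_mul_of_nonneg_left ?_ hn1)
          rw [coe_w, ← Real.mul_rpow hD0 (norm_nonneg _)]
          exact Real.rpow_le_rpow (𝒞.d_nonneg _ _) (hD y hy y' hy') h0.le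
        calc _ ≤ |A| * (f.N1 * (D ^ α * ‖y - y'‖ ^ α)) + |B| * ‖y - y'‖ ^ α * f.N0 :=
              (norm_add_le _ _).trans (add_le_add h3 (key1 y y' _))
          _ ≤ _ := by
              have h4 : 0 ≤ |A| * (f.N0 + f.N1) * ‖y - y'‖ ^ α := by positivity
              have h5 : 0 ≤ |B| * f.N1 * ‖y - y'‖ ^ α := by positivity
              have h6 : 0 ≤ |A| * D ^ α * f.N0 * ‖y - y'‖ ^ α := by positivity
              nlinarith
      · have h2 : κ y' = 0 := hκ y' hy'
        have h3 := key1 y y' (e.symm y)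
        rw [h2, _root_.zero_apply, sub_zero] at h3
        rw [h2, _root_.zero_apply, sub_zero]
        refine h3.trans ?_
        have h4 : 0 ≤ |A| * (f.N0 + f.N1) * ‖y - y'‖ ^ α := by positivity
        have h5 : 0 ≤ |B| * f.N1 * ‖y - y'‖ ^ α := by positivity
        have h6 : 0 ≤ |A| * D ^ α * (f.N0 + f.N1) * ‖y - y'‖ ^ α := by positivity
        nlinarith
    · have h2 : κ y = 0 := hκ y hy
      have h3 := key1 y y' (e.symm y')
      rw [h2, _root_.zero_apply, zero_sub] at h3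
      rw [h2, _root_.zero_apply, zero_sub]
      refine h3.trans ?_
      have h4 : 0 ≤ |A| * (f.N0 + f.N1) * ‖y - y'‖ ^ α := by positivity
      have h5 : 0 ≤ |B| * f.N1 * ‖y - y'‖ ^ α := by positivity
      have h6 : 0 ≤ |A| * D ^ α * (f.N0 + f.N1) * ‖y - y'‖ ^ α := by positivity
      nlinarith

/-! ### Transfer from a chart to `X` -/

/-- the distance of a compact set of a chart to the complement of a neighbourhood -/
lemma exists_sep [T2Space X] [CompactSpace X] [RSm E X] {e : OpenPartialHomeomorph X E}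
    (he : e ∈ atlas E X) {K : Set E} (hK : IsCompact K) (hKt : K ⊆ e.target) :
    ∃ C, 0 ≤ C ∧ ∃ c > 0, ∀ x ∈ e.symm '' K, ∀ x', (x' ∈ e.source ∧ ‖e x - e x'‖ ≤ C * 𝒞.d x x') ∨
      c ≤ 𝒞.d x x' := by
  obtain ⟨δ, hδ, hδt⟩ := hK.exists_cthickening_subset_open e.open_target hKt
  have hK' : IsCompact (cthickening δ K) := hK.cthickening
  have hcont : ContinuousOn e.symm (cthickening δ K) := e.continuousOn_symm.mono hδt
  have hKX' : IsCompact (e.symm '' cthickening δ K) := hK'.image_of_continuousOn hcont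
  have hsub : e.symm '' cthickening δ K ⊆ e.source := by
    rintro _ ⟨y, hy, rfl⟩; exact e.map_target (hδt hy)
  obtain ⟨C, hC0, hC⟩ := 𝒞.chart_lip he hKX' hsub
  -- the open set
  have hO : IsOpen (e.symm '' thickening δ K) := by
    refine e.symm.isOpen_image_of_subset_source isOpen_thickening ?_
    exact (thickening_subset_cthickening δ K).trans hδt
  have hKX : IsCompact (e.symm '' K) := hK.image_of_continuousOn (e.continuousOn_symm.mono hKt)
  have hcompl : IsCompact (e.symm '' thickening δ K)ᶜ := hO.isClosed_compl.isCompact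
  refine ⟨C, hC0, ?_⟩
  have hKsub : ∀ x ∈ e.symm '' K, x ∈ e.symm '' cthickening δ K := by
    rintro _ ⟨y, hy, rfl⟩; exact ⟨y, self_subset_cthickening K hy, rfl⟩
  rcases ((e.symm '' K) ×ˢ (e.symm '' thickening δ K)ᶜ).eq_empty_or_nonempty with hemp | hne
  · refine ⟨1, one_pos, fun x hx x' => Or.inl ?_⟩
    have hx' : x' ∈ e.symm '' thickening δ K := by
      by_contra hx'
      have : (x, x') ∈ (e.symm '' K) ×ˢ (e.symm '' thickening δ K)ᶜ := ⟨hx, hx'⟩
      rw [hemp] at this
      exact this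
    have hx'' : x' ∈ e.symm '' cthickening δ K := image_mono (thickening_subset_cthickening δ K) hx'
    exact ⟨hsub hx'', hC x (hKsub x hx) x' hx''⟩
  · obtain ⟨⟨a, b⟩, ⟨ha, hb⟩, hmin⟩ := (hKX.prod hcompl).exists_isMinOn hne
      𝒞.continuous_d.continuousOn
    have hpos : 0 < 𝒞.d a b := by
      refine lt_of_le_of_ne (𝒞.d_nonneg a b) fun h => hb ?_
      rw [← 𝒞.eq_of_d_eq_zero h.symm]
      obtain ⟨y, hy, rfl⟩ := ha
      exact ⟨y, self_subset_thickening hδ K hy, rfl⟩
    refine ⟨𝒞.d a b, hpos, fun x hx x' => ?_⟩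
    by_cases hx' : x' ∈ e.symm '' thickening δ K
    · left
      have hx'' : x' ∈ e.symm '' cthickening δ K :=
        image_mono (thickening_subset_cthickening δ K) hx'
      exact ⟨hsub hx'', hC x (hKsub x hx) x' hx''⟩
    · right
      exact hmin (show (x, x') ∈ (e.symm '' K) ×ˢ (e.symm '' thickening δ K)ᶜ from ⟨hx, hx'⟩)

/-- A Hölder function on `E` supported in a compact subset of the target of a chart, extended by
zero to `X`, is Hölder. -/
lemma transfer2 [T2Space X] [CompactSpace X] [RSm E X] {α : ℝ} (h0 : 0 < α) (h1 : α ≤ 1)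
    {e : OpenPartialHomeomorph X E} (he : e ∈ atlas E X) {K : Set E}
    (hK : IsCompact K) (hKt : K ⊆ e.target) :
    ∃ C, 0 ≤ C ∧ ∀ (g : E → V) (A B : ℝ), 0 ≤ A → 0 ≤ B → (∀ y, y ∉ K → g y = 0) → HB α g A B →
      (∀ x, ‖ext0 e g x‖ ≤ A) ∧
      ∀ x x', ‖ext0 e g x - ext0 e g x'‖ ≤ C * (A + B) * 𝒞.w α x x' := by
  obtain ⟨C, hC0, c, hc, h⟩ := 𝒞.exists_sep he hK hKt
  refine ⟨C ^ α + 2 * c ^ (-α), by positivity, fun g A B hA hB hg hHB => ⟨fun x => ?_, ?_⟩⟩
  · by_cases hx : x ∈ e.source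
    · rw [ext0_of_mem hx]; exact hHB.sup _
    · rw [ext0_of_notMem hx, norm_zero]; exact hA
  · have hsup : ∀ x, ‖ext0 e g x‖ ≤ A := fun x => by
      by_cases hx : x ∈ e.source
      · rw [ext0_of_mem hx]; exact hHB.sup _
      · rw [ext0_of_notMem hx, norm_zero]; exact hA
    have key : ∀ x ∈ e.symm '' K, ∀ x', ‖ext0 e g x - ext0 e g x'‖ ≤
        (C ^ α + 2 * c ^ (-α)) * (A + B) * 𝒞.w α x x' := by
      intro x hx x'
      have hxs : x ∈ e.source := by
        obtain ⟨y, hy, rfl⟩ := hx; exact e.map_target (hKt hy)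
      rw [coe_w]
      have hd := 𝒞.d_nonneg x x'
      have hdr : 0 ≤ 𝒞.d x x' ^ α := Real.rpow_nonneg hd _
      rcases h x hx x' with ⟨hx's, hle⟩ | hle
      · rw [ext0_of_mem hxs, ext0_of_mem hx's]
        calc ‖g (e x) - g (e x')‖ ≤ B * ‖e x - e x'‖ ^ α := hHB.hol _ _
          _ ≤ B * (C * 𝒞.d x x') ^ α := by gcongr
          _ = C ^ α * B * 𝒞.d x x' ^ α := by rw [Real.mul_rpow hC0 hd]; ring
          _ ≤ _ := by
              refine mul_le_mul_of_nonneg_right ?_ hdr
              have h2 : 0 ≤ C ^ α * A := by positivity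
              have h3 : 0 ≤ 2 * c ^ (-α) * (A + B) := by positivity
              nlinarith
      · calc ‖ext0 e g x - ext0 e g x'‖ ≤ A + A :=
              (norm_sub_le _ _).trans (add_le_add (hsup x) (hsup x'))
          _ = 2 * A * (c ^ (-α) * c ^ α) := by
              rw [← Real.rpow_add hc]; simp; ring
          _ ≤ 2 * A * (c ^ (-α) * 𝒞.d x x' ^ α) := by gcongr
          _ ≤ _ := by
              have h2 : 0 ≤ C ^ α * (A + B) * 𝒞.d x x' ^ α := by positivity
              have h3 : 0 ≤ 2 * c ^ (-α) * B * 𝒞.d x x' ^ α := by positivity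
              nlinarith
    have hzero : ∀ x, x ∉ e.symm '' K → ext0 e g x = 0 := by
      intro x hx
      by_cases hxs : x ∈ e.source
      · rw [ext0_of_mem hxs]
        exact hg _ fun hK => hx ⟨e x, hK, e.left_inv hxs⟩
      · exact ext0_of_notMem hxs
    intro x x'
    by_cases hx : x ∈ e.symm '' K
    · exact key x hx x'
    · by_cases hx' : x' ∈ e.symm '' K
      · have := key x' hx' x
        rw [norm_sub_rev, coe_w, d_comm] at this
        rwa [coe_w]
      · rw [hzero x hx, hzero x' hx', sub_zero, norm_zero]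
        have := (𝒞.w α x x').2
        positivity

end Cov

end Vale.Agent.P272.K.LIN
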